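import Mathlib

/-!
Smooth variable radii on a bounded open set: a small function positive exactly on the set with
windows inside it, and a second one below any prescribed rate towards the boundary.
-/

open Set Metric Filter
open scoped ContDiff Topology NNReal

namespace Vale.Agent.P073

noncomputable section

variable {E : Type*} [NormedAddCommGroup E] [NormedSpace ℝ E] [FiniteDimensional ℝ E]

/-- A variable window radius for `Ω` of size `γ`. -/
structure IsRadius (Ω : Set E) (γ : ℝ) (δ : E → ℝ) : Prop where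
  smooth : ContDiff ℝ ∞ δ
  nonneg : ∀ x, 0 ≤ δ x
  pos : ∀ x ∈ Ω, 0 < δ x
  zero : ∀ x ∉ Ω, δ x = 0
  le : ∀ x, δ x ≤ γ
  deriv : ∀ x, ‖fderiv ℝ δ x‖ ≤ γ
  inside : ∀ x ∈ Ω, ∀ z : E, ‖z‖ ≤ 2 → x + δ x • z ∈ Ω

omit [FiniteDimensional ℝ E] in
lemma IsRadius.lipschitz {Ω : Set E} {γ : ℝ} {δ : E → ℝ} (h : IsRadius Ω γ δ) (x y : E) :
    |δ x - δ y| ≤ γ * ‖x - y‖ := by
  simpa [Real.norm_eq_abs] using Convex.norm_image_sub_le_of_norm_fderiv_le (𝕜 := ℝ)
    (fun z _ => (h.smooth.differentiable (by simp)) z) (fun z _ => h.deriv z) convex_univ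
    (mem_univ y) (mem_univ x)

lemma IsRadius.isCompact_ge {Ω : Set E} {γ : ℝ} {δ : E → ℝ} (h : IsRadius Ω γ δ)
    (hbd : Bornology.IsBounded Ω) {c : ℝ} (hc : 0 < c) : IsCompact {x | c ≤ δ x} := by
  refine Metric.isCompact_of_isClosed_isBounded
    (isClosed_le continuous_const h.smooth.continuous) (hbd.subset fun x hx => ?_)
  by_contra hxΩ
  have := h.zero x hxΩ
  simp only [mem_ofPred_eq] at hx
  linarith

theorem exists_radius {Ω : Set E} (hΩ : IsOpen Ω) (hbd : Bornology.IsBounded Ω) {γ : ℝ}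
    (hγ : 0 < γ) : ∃ δ : E → ℝ, IsRadius Ω γ δ := by
  obtain ⟨f, hfs, hf, hfr⟩ := hΩ.exists_contDiff_support_eq (n := (⊤ : ℕ∞))
  have hcs : HasCompactSupport f := by
    rw [HasCompactSupport, tsupport, hfs]
    exact hbd.isCompact_closure
  have hf0 : ∀ x, 0 ≤ f x ∧ f x ≤ 1 := fun x => hfr ⟨x, rfl⟩
  have hfΩ : ∀ x, x ∈ Ω ↔ f x ≠ 0 := fun x => by rw [← hfs, Function.mem_support]
  obtain ⟨L, hL⟩ := (hcs.fderiv ℝ).exists_bound_of_continuous (hf.continuous_fderiv (by simp))
  have hL0 : 0 ≤ L := le_trans (norm_nonneg _) (hL 0)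
  set c := min γ (min (γ / (L + 1)) (1 / (4 * (L + 1))))
  have hc0 : 0 < c := by positivity
  have hc1 : c ≤ γ := min_le_left _ _
  have hc2 : c ≤ γ / (L + 1) := le_trans (min_le_right _ _) (min_le_left _ _)
  have hc3 : c ≤ 1 / (4 * (L + 1)) := le_trans (min_le_right _ _) (min_le_right _ _)
  refine ⟨fun x => c * f x, contDiff_const.mul hf, fun x => mul_nonneg hc0.le (hf0 x).1,
    fun x hx => ?_, fun x hx => ?_, fun x => ?_, fun x => ?_, fun x hx z hz => ?_⟩
  · exact mul_pos hc0 (lt_of_le_of_ne (hf0 x).1 (Ne.symm ((hfΩ x).1 hx)))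
  · simp [not_not.1 (mt (hfΩ x).2 hx)]
  · nlinarith [hf0 x]
  · rw [fderiv_const_mul ((hf.differentiable (by simp)) x), norm_smul, Real.norm_eq_abs,
      abs_of_pos hc0]
    calc c * ‖fderiv ℝ f x‖ ≤ γ / (L + 1) * L :=
          mul_le_mul hc2 (hL x) (norm_nonneg _) (by positivity)
      _ ≤ γ := by
          rw [div_mul_eq_mul_div, div_le_iff₀ (by positivity)]
          nlinarith
  · by_contra hy
    have hfy : f (x + (c * f x) • z) = 0 := not_not.1 (mt (hfΩ _).2 hy)
    have hfx : 0 < f x := lt_of_le_of_ne (hf0 x).1 (Ne.symm ((hfΩ x).1 hx))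
    have hlip := Convex.norm_image_sub_le_of_norm_fderiv_le (𝕜 := ℝ)
      (fun z _ => (hf.differentiable (by simp)) z) (fun z _ => hL z) convex_univ
      (mem_univ x) (mem_univ (x + (c * f x) • z))
    rw [hfy, zero_sub, norm_neg, add_sub_cancel_left, norm_smul, Real.norm_eq_abs,
      Real.norm_eq_abs, abs_of_pos hfx, abs_of_pos (mul_pos hc0 hfx)] at hlip
    have h4 : c * (4 * (L + 1)) ≤ 1 := (le_div_iff₀ (by positivity)).1 hc3
    have h5 : L * (c * f x * ‖z‖) ≤ L * (c * f x * 2) := by gcongr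
    nlinarith

/-- A radius below any positive rate `a` along the exhaustion `δ ≥ 1/k`. -/
theorem exists_fine_radius {Ω : Set E} {γ : ℝ} {δ : E → ℝ} (hδ : IsRadius Ω γ δ)
    (hbd : Bornology.IsBounded Ω) (a : ℕ → ℝ) (ha : ∀ k, 0 < a k) {γ' : ℝ} (hγ' : 0 < γ') :
    ∃ r : E → ℝ, IsRadius Ω γ' r ∧ (∀ x, r x ≤ δ x) ∧
      ∀ (k : ℕ) (x : E), δ x ≤ 1 / (k : ℝ) → r x ≤ a k := by
  classical
  set φ : ℕ → E → ℝ := fun j x => Real.smoothTransition ((j + 1 : ℝ) * δ x - 1) with hφdef
  have hφs : ∀ j, ContDiff ℝ ∞ (φ j) := fun j =>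
    Real.smoothTransition.contDiff.comp ((contDiff_const.mul hδ.smooth).sub contDiff_const)
  have hφz : ∀ (j : ℕ) (x : E), δ x ≤ 1 / (j + 1 : ℝ) → φ j x = 0 := by
    intro j x hx
    refine Real.smoothTransition.zero_of_nonpos ?_
    rw [le_div_iff₀ (by positivity : (0:ℝ) < j + 1)] at hx
    linarith
  have hφ01 : ∀ j x, 0 ≤ φ j x ∧ φ j x ≤ 1 := fun j x =>
    ⟨Real.smoothTransition.nonneg _, Real.smoothTransition.le_one _⟩
  have hcs : ∀ j, HasCompactSupport (φ j) := by
    intro j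
    refine HasCompactSupport.intro (hδ.isCompact_ge hbd (c := 1 / (j + 1 : ℝ)) (by positivity))
      fun x hx => hφz j x (not_le.1 hx).le
  have hbound : ∀ n j, ∃ M, ∀ x, ‖iteratedFDeriv ℝ n (φ j) x‖ ≤ M := fun n j =>
    ((hcs j).iteratedFDeriv n).exists_bound_of_continuous
      ((hφs j).continuous_iteratedFDeriv (by exact_mod_cast le_top))
  choose M hM using hbound
  have hM0 : ∀ n j, 0 ≤ M n j := fun n j => le_trans (norm_nonneg _) (hM n j 0)
  -- the coefficients
  have hc : ∀ j : ℕ, ∃ c : ℝ, 0 < c ∧ c ≤ γ' ∧ c * (j + 1) ≤ 1 ∧ (∀ n ≤ j + 1, c * M n j ≤ γ') ∧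
      (∀ n ≤ j + 1, c * M n j ≤ 1) ∧ ∀ k ≤ j, c ≤ a k := by
    intro j
    set S := (j + 1 : ℝ) + ∑ n ∈ Finset.range (j + 2), M n j
    have hS : 1 ≤ S := by
      have : 0 ≤ ∑ n ∈ Finset.range (j + 2), M n j := Finset.sum_nonneg fun n _ => hM0 n j
      have : (0:ℝ) ≤ (j:ℝ) := Nat.cast_nonneg j
      simp only [S]; linarith
    set m := (Finset.range (j + 1)).inf' ⟨0, by simp⟩ a
    have hm : 0 < m := (Finset.lt_inf'_iff _).2 fun k _ => ha k
    set d := min (min γ' 1) m
    have hd : 0 < d := lt_min (lt_min hγ' one_pos) hm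
    have hMS : ∀ n ≤ j + 1, M n j ≤ S := fun n hn => by
      have := Finset.single_le_sum (f := fun n => M n j) (fun i _ => hM0 i j)
        (Finset.mem_range.2 (by omega : n < j + 2))
      have : (0:ℝ) ≤ (j:ℝ) := Nat.cast_nonneg j
      simp only [S] at *; linarith
    have hdS : d / S ≤ d := div_le_self hd.le hS
    have hkey : ∀ y, y ≤ S → d / S * y ≤ d := fun y hy => by
      rw [div_mul_eq_mul_div, div_le_iff₀ (by linarith)]
      exact mul_le_mul_of_nonneg_left hy hd.le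
    refine ⟨d / S, by positivity, hdS.trans ((min_le_left _ _).trans (min_le_left _ _)), ?_,
      fun n hn => (hkey _ (hMS n hn)).trans ((min_le_left _ _).trans (min_le_left _ _)),
      fun n hn => (hkey _ (hMS n hn)).trans ((min_le_left _ _).trans (min_le_right _ _)),
      fun k hk => hdS.trans ((min_le_right _ _).trans
        (Finset.inf'_le _ (Finset.mem_range.2 (by omega))))⟩
    refine (hkey _ ?_).trans ((min_le_left _ _).trans (min_le_right _ _))
    have : 0 ≤ ∑ n ∈ Finset.range (j + 2), M n j := Finset.sum_nonneg fun n _ => hM0 n j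
    simp only [S]; linarith
  choose c hc0 hcγ hcj hcMγ hcM1 hca using hc
  set w : ℕ → ℝ := fun j => (1 / 2 : ℝ) ^ (j + 1)
  have hw0 : ∀ j, 0 < w j := fun j => by positivity
  have hwsum : HasSum w 1 := by
    have := (hasSum_geometric_two).mul_left (1 / 2 : ℝ)
    simpa [w, pow_succ'] using this
  set g : ℕ → E → ℝ := fun j x => w j * c j * φ j x with hgdef
  have hgs : ∀ j, ContDiff ℝ ∞ (g j) := fun j => contDiff_const.mul (hφs j)
  have hg0 : ∀ j x, 0 ≤ g j x := fun j x =>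
    mul_nonneg (mul_nonneg (hw0 j).le (hc0 j).le) (hφ01 j x).1
  have hgiter : ∀ (k j : ℕ) (x : E), ‖iteratedFDeriv ℝ k (g j) x‖ ≤ w j * c j * M k j := by
    intro k j x
    have hg' : g j = fun y => (w j * c j) • φ j y := by funext y; simp [g]
    rw [hg', iteratedFDeriv_const_smul_apply' ((hφs j).contDiffAt.of_le (by exact_mod_cast le_top)),
      norm_smul, Real.norm_eq_abs, abs_of_pos (mul_pos (hw0 j) (hc0 j))]
    exact mul_le_mul_of_nonneg_left (hM k j x) (mul_pos (hw0 j) (hc0 j)).le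
  have hsmooth : ContDiff ℝ ∞ fun x => ∑' j, g j x := by
    refine contDiff_tsum hgs (v := fun k j => w j * (if j + 1 < k then c j * M k j else 1))
      (fun k _ => ?_) fun k j x _ => (hgiter k j x).trans ?_
    · refine Summable.congr_cofinite hwsum.summable ?_
      rw [Nat.cofinite_eq_atTop]
      filter_upwards [eventually_ge_atTop k] with j hj
      simp [not_lt.2 (by omega : k ≤ j + 1)]
    · split_ifs with h
      · rw [mul_assoc]
      · rw [mul_one, mul_assoc]
        exact mul_le_of_le_one_right (hw0 j).le (hcM1 j k (not_lt.1 h))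
  have hterm : ∀ j x, g j x ≤ w j * c j := fun j x =>
    mul_le_of_le_one_right (mul_pos (hw0 j) (hc0 j)).le (hφ01 j x).2
  have hsum : ∀ x, Summable fun j => g j x := fun x =>
    Summable.of_nonneg_of_le (fun j => hg0 j x) (fun j => (hterm j x).trans
      (mul_le_mul_of_nonneg_left (hcγ j) (hw0 j).le)) (hwsum.summable.mul_right γ')
  have hle : ∀ x B, 0 ≤ B → (∀ j, φ j x ≠ 0 → c j ≤ B) → ∑' j, g j x ≤ B := by
    intro x B hB h
    have h1 : ∀ j, g j x ≤ w j * B := by
      intro j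
      by_cases hz : φ j x = 0
      · simp only [g, hz, mul_zero]; exact mul_nonneg (hw0 j).le hB
      · exact (hterm j x).trans (mul_le_mul_of_nonneg_left (h j hz) (hw0 j).le)
    have := (hsum x).tsum_le_tsum h1 (hwsum.summable.mul_right B)
    rwa [tsum_mul_right, hwsum.tsum_eq, one_mul] at this
  have hrδ : ∀ x, ∑' j, g j x ≤ δ x := fun x => hle x _ (hδ.nonneg x) fun j hj => by
    have h1 : 1 / (j + 1 : ℝ) < δ x := not_le.1 (mt (hφz j x) hj)
    rw [div_lt_iff₀ (by positivity)] at h1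
    nlinarith [hcj j, hδ.nonneg x]
  refine ⟨fun x => ∑' j, g j x,
    ⟨hsmooth, fun x => tsum_nonneg fun j => hg0 j x, fun x hx => ?_, fun x hx => ?_,
      fun x => hle x _ hγ'.le fun j _ => hcγ j, fun x => ?_, fun x hx z hz => ?_⟩, hrδ,
    fun k x hx => hle x _ (ha k).le fun j hj => hca j k ?_⟩
  · obtain ⟨j, hj⟩ := exists_nat_gt (1 / δ x)
    refine (hsum x).tsum_pos (fun j => hg0 j x) j (mul_pos (mul_pos (hw0 j) (hc0 j)) ?_)
    refine Real.smoothTransition.pos_of_pos ?_
    rw [div_lt_iff₀ (hδ.pos x hx)] at hj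
    nlinarith [hδ.pos x hx]
  · refine le_antisymm ((hrδ x).trans (hδ.zero x hx).le) (tsum_nonneg fun j => hg0 j x)
  · have hd : ∀ j y, ‖fderiv ℝ (g j) y‖ ≤ w j * γ' := by
      intro j y
      rw [← norm_iteratedFDeriv_one]
      refine (hgiter 1 j y).trans ?_
      rw [mul_assoc]
      exact mul_le_mul_of_nonneg_left (hcMγ j 1 (by omega)) (hw0 j).le
    rw [fderiv_tsum_apply (hwsum.summable.mul_right γ')
      (fun j => (hgs j).differentiable (by simp)) hd (hsum x) x]
    have := tsum_of_norm_bounded (hwsum.mul_right γ') (fun j => hd j x)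
    simpa using this
  · have hδx := hδ.pos x hx
    have hr0 : 0 ≤ ∑' j, g j x := tsum_nonneg fun j => hg0 j x
    have hz' : ‖((∑' j, g j x) / δ x) • z‖ ≤ 2 := by
      rw [norm_smul, Real.norm_eq_abs, abs_of_nonneg (by positivity)]
      exact (mul_le_of_le_one_left (norm_nonneg z) ((div_le_one hδx).2 (hrδ x))).trans hz
    have := hδ.inside x hx _ hz'
    rwa [smul_smul, mul_div_cancel₀ _ hδx.ne'] at this
  · by_contra hc'
    push Not at hc'
    have h2 : (j + 1 : ℝ) ≤ k := by exact_mod_cast hc'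
    exact hj (hφz j x (hx.trans (one_div_le_one_div_of_le (by positivity) h2)))

end

end Vale.Agent.P073
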