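import Mathlib
import Vale.Agent.P073.Radius

/-!
# P073: maps along parallel lines squeezed between window values of a homeomorphism

If `x ↦ x + v x • e` takes on each fibre a value strictly between the values of the injective
`x ↦ x + u x • e` at the ends of the window around `x`, and has nonvanishing derivative along
the lines, then it is a diffeomorphism onto the same image.
-/

open Set Filter Metric
open scoped ContDiff Topology

noncomputable section

namespace Vale.Agent.P073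

variable {E : Type*} [NormedAddCommGroup E] [NormedSpace ℝ E] [FiniteDimensional ℝ E]

omit [FiniteDimensional ℝ E] in
/-- The window of a point lies in the set. -/
theorem IsRadius.window_mem {Ω : Set E} {γ : ℝ} {δ : E → ℝ} (hδ : IsRadius Ω γ δ) {e : E}
    (he : ‖e‖ = 1) {x : E} (hx : x ∈ Ω) {τ : ℝ} (hτ : |τ| ≤ δ x) : x + τ • e ∈ Ω := by
  have hd := hδ.pos x hx
  have h := hδ.inside x hx ((τ / δ x) • e) (by
    rw [norm_smul, he, mul_one, Real.norm_eq_abs, abs_div, abs_of_pos hd, div_le_iff₀ hd]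
    linarith)
  rwa [smul_smul, mul_div_cancel₀ _ hd.ne'] at h

omit [FiniteDimensional ℝ E] in
/-- An interval of a line about an interior parameter. -/
theorem exists_fibre_interval {Ω : Set E} (hΩ : IsOpen Ω) (hbd : Bornology.IsBounded Ω) {e : E}
    (he : ‖e‖ = 1) {P : E} (hP : P ∈ Ω) :
    ∃ a b : ℝ, a < 0 ∧ 0 < b ∧ (∀ τ ∈ Ioo a b, P + τ • e ∈ Ω) ∧ P + a • e ∉ Ω ∧ P + b • e ∉ Ω := by
  obtain ⟨R, hR⟩ := hbd.exists_norm_le
  set T := {τ : ℝ | P + τ • e ∉ Ω} with hT
  have hTc : IsClosed T := hΩ.isClosed_compl.preimage (by fun_prop : Continuous fun τ : ℝ => P + τ • e)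
  have hfar : ∀ τ : ℝ, R + ‖P‖ < |τ| → τ ∈ T := fun τ h hmem => by
    have h1 := norm_sub_norm_le (τ • e) (-P)
    rw [norm_smul, he, mul_one, Real.norm_eq_abs, norm_neg, sub_neg_eq_add, add_comm] at h1
    linarith [hR _ hmem]
  have hR0 : 0 ≤ R + ‖P‖ := by linarith [hR _ hP, norm_nonneg P]
  have hmax : sSup (T ∩ Iic 0) ∈ T ∩ Iic 0 := (hTc.inter isClosed_Iic).csSup_mem
    ⟨-(R + ‖P‖ + 1), hfar _ (by rw [abs_neg, abs_of_nonneg] <;> linarith),
      mem_Iic.2 (by linarith)⟩ ⟨0, fun _ h => h.2⟩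
  have hmin : sInf (T ∩ Ici 0) ∈ T ∩ Ici 0 := (hTc.inter isClosed_Ici).csInf_mem
    ⟨R + ‖P‖ + 1, hfar _ (by rw [abs_of_nonneg] <;> linarith), mem_Ici.2 (by linarith)⟩
    ⟨0, fun _ h => h.2⟩
  have h0 : (0 : ℝ) ∉ T := by simp [hT, hP]
  refine ⟨sSup (T ∩ Iic 0), sInf (T ∩ Ici 0), lt_of_le_of_ne hmax.2 fun h => h0 (h ▸ hmax.1),
    lt_of_le_of_ne hmin.2 fun h => h0 (h.symm ▸ hmin.1), fun τ hτ => by_contra fun h => ?_,
    hmax.1, hmin.1⟩
  rcases le_total τ 0 with h1 | h1
  · exact hτ.1.not_ge (le_csSup ⟨0, fun _ h => h.2⟩ ⟨h, h1⟩)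
  · exact hτ.2.not_ge (csInf_le ⟨0, fun _ h => h.2⟩ ⟨h, h1⟩)

/-- A map squeezed between the window values is a diffeomorphism onto the same image. -/
theorem fibre_bijOn {Ω : Set E} (hΩ : IsOpen Ω) (hbd : Bornology.IsBounded Ω) {γ : ℝ} {δ : E → ℝ}
    (hδ : IsRadius Ω γ δ) {e : E} (he : ‖e‖ = 1) {u v : E → ℝ} (hu : ContinuousOn u Ω)
    (hinj : InjOn (fun x => x + u x • e) Ω) (hv : ContDiffOn ℝ ∞ v Ω)
    (hne : ∀ x ∈ Ω, 1 + fderiv ℝ v x e ≠ 0)
    (hbetween : ∀ x ∈ Ω,
      min (-δ x + u (x + δ x • (-e))) (δ x + u (x + δ x • e)) < v x ∧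
        v x < max (-δ x + u (x + δ x • (-e))) (δ x + u (x + δ x • e))) :
    BijOn (fun x => x + v x • e) Ω ((fun x => x + u x • e) '' Ω) ∧
      ContDiffOn ℝ ∞ (Function.invFunOn (fun x => x + v x • e) Ω) ((fun x => x + u x • e) '' Ω) ∧
      IsOpen ((fun x => x + u x • e) '' Ω) := by
  set f : E → E := fun x => x + u x • e with hf
  set g : E → E := fun x => x + v x • e with hg
  -- a value of `f` in the window
  have hwin : ∀ x ∈ Ω, ∃ s : ℝ, |s| ≤ δ x ∧ f (x + s • e) = g x := fun x hx => by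
    have hd := (hδ.pos x hx).le
    have hc : ContinuousOn (fun s : ℝ => s + u (x + s • e)) (uIcc (-δ x) (δ x)) :=
      continuousOn_id.add (hu.comp (by fun_prop : Continuous fun s : ℝ => x + s • e).continuousOn
        fun s hs => hδ.window_mem he hx (by
          rw [uIcc_of_le (by linarith)] at hs; exact abs_le.2 hs))
    have hm : v x ∈ uIcc (-δ x + u (x + -δ x • e)) (δ x + u (x + δ x • e)) := by
      have h := hbetween x hx
      rw [smul_neg, ← neg_smul] at h
      exact ⟨h.1.le, h.2.le⟩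
    obtain ⟨s, hs, hsv⟩ := intermediate_value_uIcc hc hm
    rw [uIcc_of_le (by linarith)] at hs
    refine ⟨s, abs_le.2 hs, ?_⟩
    simp only [hf, hg, ← hsv]
    module
  have hmaps : MapsTo g Ω (f '' Ω) := fun x hx => by
    obtain ⟨s, hs, h⟩ := hwin x hx
    exact ⟨_, hδ.window_mem he hx hs, h⟩
  have hvd : ∀ x ∈ Ω, ContDiffAt ℝ ∞ v x := fun x hx => hv.contDiffAt (hΩ.mem_nhds hx)
  have hginj : InjOn g Ω := fun x hx y hy hxy => by
    obtain ⟨s, hs, hsx⟩ := hwin x hx
    obtain ⟨s', hs', hsy⟩ := hwin y hy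
    have hp : x + s • e = y + s' • e := hinj (hδ.window_mem he hx hs) (hδ.window_mem he hy hs')
      ((hsx.trans hxy).trans hsy.symm)
    set t := v x - v y with ht
    have hy' : y = x + t • e := by
      simp only [hg] at hxy
      rw [ht, sub_smul, ← add_sub_assoc, hxy, add_sub_cancel_right]
    have hts : t = s - s' := by
      rw [hy'] at hp
      have : s • e = (t + s') • e := by
        rw [add_smul, ← add_right_inj x, hp, add_assoc]
      have he0 : e ≠ 0 := fun h => by simp [h] at he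
      have := smul_left_injective ℝ he0 this
      linarith
    have hseg : ∀ τ ∈ uIcc 0 t, x + τ • e ∈ Ω := fun τ hτ => by
      rcases le_or_gt |τ| (δ x) with h | h
      · exact hδ.window_mem he hx h
      · have : x + τ • e = y + (τ - t) • e := by rw [hy']; module
        rw [this]
        refine hδ.window_mem he hy ?_
        rw [abs_le] at hs hs' ⊢
        rw [mem_uIcc] at hτ
        rcases lt_abs.1 h with h' | h' <;> rcases hτ with hτ | hτ <;>
          constructor <;> linarith [hτ.1, hτ.2]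
    by_contra hne'
    have ht0 : t ≠ 0 := fun h => hne' (by rw [hy', h, zero_smul, add_zero])
    have hder : ∀ τ ∈ uIcc 0 t, HasDerivAt (fun τ : ℝ => τ + v (x + τ • e))
        (1 + fderiv ℝ v (x + τ • e) e) τ := fun τ hτ => by
      have h1 : HasDerivAt (fun τ : ℝ => x + τ • e) e τ := by
        simpa using ((hasDerivAt_id τ).smul_const e).const_add x
      exact (hasDerivAt_id τ).add (((hvd _ (hseg τ hτ)).differentiableAt (by simp)).hasFDerivAt.comp_hasDerivAt τ h1)
    have hval : (fun τ : ℝ => τ + v (x + τ • e)) 0 = (fun τ : ℝ => τ + v (x + τ • e)) t := by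
      show 0 + v (x + (0 : ℝ) • e) = t + v (x + t • e)
      rw [zero_smul, add_zero, zero_add, ← hy', ht]
      ring
    rcases lt_or_gt_of_ne ht0 with htn | htp
    · obtain ⟨c, hc, h0⟩ := exists_hasDerivAt_eq_zero htn
        (fun τ hτ => (hder τ (by rw [uIcc_of_ge htn.le]; exact hτ)).continuousAt.continuousWithinAt)
        hval.symm (fun τ hτ => hder τ (by rw [uIcc_of_ge htn.le]; exact Ioo_subset_Icc_self hτ))
      exact hne _ (hseg c (by rw [uIcc_of_ge htn.le]; exact Ioo_subset_Icc_self hc)) h0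
    · obtain ⟨c, hc, h0⟩ := exists_hasDerivAt_eq_zero htp
        (fun τ hτ => (hder τ (by rw [uIcc_of_le htp.le]; exact hτ)).continuousAt.continuousWithinAt)
        hval (fun τ hτ => hder τ (by rw [uIcc_of_le htp.le]; exact Ioo_subset_Icc_self hτ))
      exact hne _ (hseg c (by rw [uIcc_of_le htp.le]; exact Ioo_subset_Icc_self hc)) h0
  have hsurj : SurjOn g Ω (f '' Ω) := by
    rintro _ ⟨P, hP, rfl⟩
    obtain ⟨a, b, ha, hb, hab, haΩ, hbΩ⟩ := exists_fibre_interval hΩ hbd he hP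
    set F : ℝ → ℝ := fun τ => τ + u (P + τ • e) with hF
    set φ : ℝ → ℝ := fun τ => τ + v (P + τ • e) with hφ
    have hline : Continuous fun τ : ℝ => P + τ • e := by fun_prop
    have hFc : ContinuousOn F (Ioo a b) :=
      continuousOn_id.add (hu.comp hline.continuousOn fun τ hτ => hab τ hτ)
    have hφc : ContinuousOn φ (Ioo a b) :=
      continuousOn_id.add (hv.continuousOn.comp hline.continuousOn fun τ hτ => hab τ hτ)
    have hFi : InjOn F (Ioo a b) := fun σ hσ τ hτ h => by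
      have hfe : f (P + σ • e) = f (P + τ • e) := by
        simp only [hf, add_assoc, ← add_smul]
        rw [show σ + u (P + σ • e) = τ + u (P + τ • e) from h]
      have he0 : e ≠ 0 := fun h => by simp [h] at he
      exact smul_left_injective ℝ he0 (add_left_cancel (hinj (hab σ hσ) (hab τ hτ) hfe))
    set d : ℝ → ℝ := fun τ => δ (P + τ • e) with hd
    have hdc : Continuous d := hδ.smooth.continuous.comp hline
    -- windows stay in the interval
    have hw : ∀ τ ∈ Ioo a b, τ - d τ ∈ Ioo a b ∧ τ + d τ ∈ Ioo a b ∧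
        min (F (τ - d τ)) (F (τ + d τ)) ≤ φ τ ∧ φ τ ≤ max (F (τ - d τ)) (F (τ + d τ)) := fun τ hτ => by
      have hx := hab τ hτ
      have hd0 : 0 < d τ := hδ.pos _ hx
      have hσ : ∀ σ : ℝ, |σ| ≤ d τ → P + (τ + σ) • e ∈ Ω := fun σ hσ => by
        rw [add_smul, ← add_assoc]; exact hδ.window_mem he hx hσ
      have hl : a < τ - d τ := not_le.1 fun h => haΩ (by
        have := hσ (a - τ) (abs_le.2 ⟨by linarith, by linarith [hτ.1]⟩)
        rwa [add_sub_cancel] at this)
      have hr : τ + d τ < b := not_le.1 fun h => hbΩ (by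
        have := hσ (b - τ) (abs_le.2 ⟨by linarith [hτ.2], by linarith⟩)
        rwa [add_sub_cancel] at this)
      refine ⟨⟨hl, by linarith [hτ.2]⟩, ⟨by linarith [hτ.1], hr⟩, ?_⟩
      have e1 : F (τ - d τ) = τ + (-δ (P + τ • e) + u (P + τ • e + δ (P + τ • e) • (-e))) := by
        rw [show P + τ • e + δ (P + τ • e) • (-e) = P + (τ - d τ) • e by simp only [hd]; module]
        simp only [hF, hd]; ring
      have e2 : F (τ + d τ) = τ + (δ (P + τ • e) + u (P + τ • e + δ (P + τ • e) • e)) := by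
        rw [show P + τ • e + δ (P + τ • e) • e = P + (τ + d τ) • e by simp only [hd]; module]
        simp only [hF, hd]; ring
      obtain ⟨h1, h2⟩ := hbetween _ hx
      rw [e1, e2, min_add_add_left, max_add_add_left]
      exact ⟨add_le_add le_rfl h1.le, add_le_add le_rfl h2.le⟩
    have hda : d a = 0 := hδ.zero _ haΩ
    have hdb : d b = 0 := hδ.zero _ hbΩ
    obtain ⟨τ₁, hl₁, hτ₁⟩ : ∃ τ, τ + d τ < 0 ∧ τ ∈ Ioo a b := by
      refine Eventually.exists (f := 𝓝[>] a) (Eventually.and ?_ (Ioo_mem_nhdsGT (ha.trans hb)))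
      exact ((continuous_id.add hdc).tendsto a).mono_left nhdsWithin_le_nhds |>.eventually
        (gt_mem_nhds (by simp [hda, ha]))
    obtain ⟨τ₂, hl₂, hτ₂⟩ : ∃ τ, 0 < τ - d τ ∧ τ ∈ Ioo a b := by
      refine Eventually.exists (f := 𝓝[<] b) (Eventually.and ?_ (Ioo_mem_nhdsLT (ha.trans hb)))
      exact ((continuous_id.sub hdc).tendsto b).mono_left nhdsWithin_le_nhds |>.eventually
        (lt_mem_nhds (by simp [hdb, hb]))
    have h0 : (0 : ℝ) ∈ Ioo a b := ⟨ha, hb⟩
    have hd1 : 0 < d τ₁ := hδ.pos _ (hab _ hτ₁)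
    have hd2 : 0 < d τ₂ := hδ.pos _ (hab _ hτ₂)
    obtain ⟨p1, p2, p3, p4⟩ := hw τ₁ hτ₁
    obtain ⟨q1, q2, q3, q4⟩ := hw τ₂ hτ₂
    have hmem : F 0 ∈ uIcc (φ τ₁) (φ τ₂) := by
      rcases hFc.strictMonoOn_of_injOn_Ioo (ha.trans hb) hFi with hm | hm
      · refine Icc_subset_uIcc ⟨p4.trans (max_le ?_ ?_), le_trans (le_min ?_ ?_) q3⟩
        exacts [(hm p1 h0 (by linarith)).le, (hm p2 h0 hl₁).le, (hm h0 q1 hl₂).le,
          (hm h0 q2 (by linarith)).le]
      · refine Icc_subset_uIcc' ⟨q4.trans (max_le ?_ ?_), le_trans (le_min ?_ ?_) p3⟩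
        exacts [(hm h0 q1 hl₂).le, (hm h0 q2 (by linarith)).le, (hm p1 h0 (by linarith)).le,
          (hm p2 h0 hl₁).le]
    have hsub : uIcc τ₁ τ₂ ⊆ Ioo a b := by
      rw [uIcc]
      exact Icc_subset_Ioo (lt_min hτ₁.1 hτ₂.1) (max_lt hτ₁.2 hτ₂.2)
    obtain ⟨τ, hτ, hτv⟩ := intermediate_value_uIcc (hφc.mono hsub) hmem
    refine ⟨P + τ • e, hab τ (hsub hτ), ?_⟩
    simp only [hf, hg, add_assoc, ← add_smul]
    rw [show τ + v (P + τ • e) = F 0 from hτv]
    simp [hF]
  have hbij : BijOn g Ω (f '' Ω) := ⟨hmaps, hginj, hsurj⟩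
  -- local inverses
  have hloc : ∀ x ∈ Ω, ∃ L : E ≃L[ℝ] E, HasFDerivAt g (L : E →L[ℝ] E) x := fun x hx => by
    set l := fderiv ℝ v x with hl
    have hd : HasFDerivAt g (ContinuousLinearMap.id ℝ E + l.smulRight e) x :=
      (hasFDerivAt_id x).add (((hvd x hx).differentiableAt (by simp)).hasFDerivAt.smul_const e)
    have hker : Function.Injective (ContinuousLinearMap.id ℝ E + l.smulRight e : E →ₗ[ℝ] E) := by
      refine (injective_iff_map_eq_zero _).2 fun w hw => ?_
      change w + l w • e = 0 at hw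
      have h2 : l (w + l w • e) = 0 := by rw [hw, map_zero]
      rw [map_add, map_smul, smul_eq_mul] at h2
      have hlw : l w = 0 := (mul_eq_zero.1
        (show l w * (1 + l e) = 0 by linarith)).resolve_right (hne x hx)
      rwa [hlw, zero_smul, add_zero] at hw
    set L : E ≃L[ℝ] E := (LinearEquiv.ofInjectiveEndo _ hker).toContinuousLinearEquiv with hLdef
    refine ⟨L, ?_⟩
    convert hd using 1
    ext w
    rfl
  have hgd : ∀ x ∈ Ω, ContDiffAt ℝ ∞ g x := fun x hx =>
    contDiffAt_id.add ((hvd x hx).smul contDiffAt_const)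
  refine ⟨hbij, fun y hy => ?_, ?_⟩
  · obtain ⟨x, hx, rfl⟩ := hbij.surjOn hy
    obtain ⟨L, hL⟩ := hloc x hx
    have hn : (∞ : WithTop ℕ∞) ≠ 0 := by simp
    have hc := (hgd x hx).to_localInverse hL hn
    refine (hc.congr_of_eventuallyEq ?_).contDiffWithinAt
    have hs := (hgd x hx).hasStrictFDerivAt' hL hn
    have h0 : (hgd x hx).localInverse hL hn (g x) = x := (hgd x hx).localInverse_apply_image hL hn
    filter_upwards [hs.eventually_right_inverse, hc.continuousAt.preimage_mem_nhds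
      (show Ω ∈ 𝓝 ((hgd x hx).localInverse hL hn (g x)) by rw [h0]; exact hΩ.mem_nhds hx)] with z hz hzΩ
    have hex : ∃ w ∈ Ω, g w = z := ⟨_, hzΩ, hz⟩
    exact hginj (Function.invFunOn_mem hex) hzΩ ((Function.invFunOn_eq hex).trans hz.symm)
  · rw [← hbij.image_eq, isOpen_iff_mem_nhds]
    rintro _ ⟨x, hx, rfl⟩
    obtain ⟨L, hL⟩ := hloc x hx
    rw [← ((hgd x hx).hasStrictFDerivAt' hL (by simp)).map_nhds_eq_of_equiv]
    exact image_mem_map (hΩ.mem_nhds hx)

end Vale.Agent.P073
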