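import Vale.Agent.P073.Deriv

/-!
The scalar statement behind the approximation of maps that move points along parallel lines.
-/

open Set MeasureTheory
open scoped ContDiff ENNReal

namespace Vale.Agent.P073

noncomputable section

/-- Three-dimensional Euclidean space. -/
abbrev E3 := EuclideanSpace ℝ (Fin 3)

/-- The scalar approximation: `v` approximates `u`, and `x + v x • e` is a diffeomorphism onto the
image of `x + u x • e`. -/
def CoreSpec : Prop :=
  ∀ p : ℝ, 1 ≤ p → ∀ Ω : Set E3, IsOpen Ω → Bornology.IsBounded Ω → ∀ e : E3, ‖e‖ = 1 →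
    ∀ (u : E3 → ℝ) (G : E3 → E3 →L[ℝ] ℝ), ContinuousOn u Ω →
    InjOn (fun x => x + u x • e) Ω → WeakGrad volume Ω u G →
    MemLp u (ENNReal.ofReal p) (volume.restrict Ω) →
    MemLp G (ENNReal.ofReal p) (volume.restrict Ω) →
    ∀ ε : ℝ≥0∞, ε ≠ 0 → ∃ v : E3 → ℝ, ContDiffOn ℝ ∞ v Ω ∧
      BijOn (fun x => x + v x • e) Ω ((fun x => x + u x • e) '' Ω) ∧
      IsOpen ((fun x => x + u x • e) '' Ω) ∧
      ContDiffOn ℝ ∞ (Function.invFunOn (fun x => x + v x • e) Ω)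
        ((fun x => x + u x • e) '' Ω) ∧
      MemLp v (ENNReal.ofReal p) (volume.restrict Ω) ∧
      MemLp (fderiv ℝ v) (ENNReal.ofReal p) (volume.restrict Ω) ∧
      (∫⁻ x in Ω, ‖v x - u x‖ₑ ^ p) ≤ ε ∧
      (∫⁻ x in Ω, ‖fderiv ℝ v x - G x‖ₑ ^ p) ≤ ε

end

end Vale.Agent.P073
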