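import Vale.Agent.P073.Deriv

/-!
The segment average along a fixed direction, and the margin it gives to the derivative along the
direction of a map that moves each point parallel to it.
-/

open Set Metric Filter MeasureTheory
open scoped ContDiff Topology ENNReal

namespace Vale.Agent.P073

noncomputable section

variable {E : Type*} [NormedAddCommGroup E] [NormedSpace ℝ E] [MeasurableSpace E] [BorelSpace E]

/-- The uniform probability measure on the segment `[-e, e]`. -/
def segMeasure (e : E) : Measure E :=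
  ENNReal.ofReal (1 / 2) •
    (volume.restrict (Icc (-1 : ℝ) 1)).map fun σ : ℝ => σ • e

omit [NormedSpace ℝ E] in
lemma measurable_real_fun {f : ℝ → E} (hf : Continuous f) : Measurable f := hf.measurable

instance (e : E) : IsProbabilityMeasure (segMeasure e) := by
  refine ⟨?_⟩
  rw [segMeasure, Measure.smul_apply, Measure.map_apply (measurable_real_fun (by fun_prop))
    MeasurableSet.univ, preimage_univ, Measure.restrict_apply_univ, Real.volume_Icc, smul_eq_mul,
    ← ENNReal.ofReal_mul (by norm_num)]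
  norm_num

lemma segMeasure_ball {e : E} (he : ‖e‖ = 1) : ∀ᵐ z ∂segMeasure e, ‖z‖ ≤ 1 := by
  refine Measure.ae_smul_measure ?_ _
  rw [ae_map_iff (measurable_real_fun (by fun_prop)).aemeasurable
    (isClosed_le continuous_norm continuous_const).measurableSet]
  filter_upwards [ae_restrict_mem measurableSet_Icc] with σ hσ
  rw [norm_smul, he, mul_one, Real.norm_eq_abs, abs_le]
  exact hσ

lemma integral_segMeasure [FiniteDimensional ℝ E] {F : Type*} [NormedAddCommGroup F]
    [NormedSpace ℝ F] {e : E} (he : e ≠ 0) (H : E → F) :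
    ∫ z, H z ∂segMeasure e = (1 / 2 : ℝ) • ∫ σ in (-1 : ℝ)..1, H (σ • e) := by
  rw [segMeasure, integral_smul_measure,
    (isClosedEmbedding_smul_left he).measurableEmbedding.integral_map,
    intervalIntegral.integral_of_le (by norm_num), ← integral_Icc_eq_integral_Ioc,
    ENNReal.toReal_ofReal (by norm_num)]

variable [FiniteDimensional ℝ E] {Ω : Set E} {γ : ℝ} {δ : E → ℝ} {e : E}

lemma IsRadius.line_mem (hδ : IsRadius Ω γ δ) (he : ‖e‖ = 1) {x : E} (hx : x ∈ Ω) {σ : ℝ}
    (hσ : |σ| ≤ 2) : x + δ x • σ • e ∈ Ω :=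
  hδ.inside x hx _ (by rwa [norm_smul, he, mul_one, Real.norm_eq_abs])

theorem shiftAvg_seg_contDiffOn (hδ : IsRadius Ω γ δ) (he : ‖e‖ = 1) (hΩ : IsOpen Ω) {w : E → ℝ}
    (hw : ContDiffOn ℝ ∞ w Ω) : ContDiffOn ℝ ∞ (shiftAvg (segMeasure e) δ w) Ω := by
  have he0 : e ≠ 0 := norm_ne_zero_iff.1 (by rw [he]; norm_num)
  let χ : ContDiffBump (0 : ℝ) := ⟨3 / 2, 2, by norm_num, by norm_num⟩
  set g : E → ℝ → ℝ := fun x z => χ z * w (x + δ x • (-z) • e)
  set f : ℝ → ℝ := (Icc (-1 : ℝ) 1).indicator fun _ => 1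
  have hg0 : ∀ x z, x ∈ Ω → z ∉ closedBall (0 : ℝ) 2 → g x z = 0 := by
    intro x z _ hz
    have : χ z = 0 := image_eq_zero_of_notMem_tsupport (by rwa [χ.tsupport_eq])
    simp [g, this]
  have hgd : ContDiffOn ℝ ∞ ↿g (Ω ×ˢ univ) := by
    intro q hq
    apply ContDiffAt.contDiffWithinAt
    by_cases hz : |q.2| ≤ 2
    · have hmem := hδ.line_mem he hq.1 (σ := -q.2) (by rwa [abs_neg])
      refine ((χ.contDiff.comp contDiff_snd).contDiffAt).mul ?_
      refine (hw.contDiffAt (hΩ.mem_nhds hmem)).comp q ?_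
      exact (contDiff_fst.add ((hδ.smooth.comp contDiff_fst).smul
        (contDiff_snd.neg.smul contDiff_const))).contDiffAt
    · have hev : ↿g =ᶠ[𝓝 q] fun _ => 0 := by
        filter_upwards [(isOpen_lt continuous_const (continuous_abs.comp continuous_snd)).mem_nhds
          (not_le.1 hz)] with p hp
        have : χ p.2 = 0 := image_eq_zero_of_notMem_tsupport (by
          rw [χ.tsupport_eq, mem_closedBall, dist_zero_right, Real.norm_eq_abs, not_le]
          exact hp)
        simp [g, Function.HasUncurry.uncurry, this]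
      exact contDiffAt_const.congr_of_eventuallyEq hev
  have hf : Integrable f (volume : Measure ℝ) :=
    (integrable_indicator_iff measurableSet_Icc).2 (integrableOn_const (by simp))
  have hconv := contDiffOn_convolution_right_with_param_comp (ContinuousLinearMap.mul ℝ ℝ)
    (μ := (volume : Measure ℝ)) (v := fun _ : E => (0 : ℝ)) contDiffOn_const hΩ
    (isCompact_closedBall _ _) hg0 hf.locallyIntegrable hgd
  refine (hconv.const_smul (1 / 2 : ℝ)).congr fun x hx => ?_
  rw [shiftAvg, integral_segMeasure he0 fun z => w (x + δ x • z),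
    intervalIntegral.integral_of_le (by norm_num), ← integral_Icc_eq_integral_Ioc,
    MeasureTheory.convolution_def]
  congr 1
  rw [← integral_indicator measurableSet_Icc]
  refine integral_congr_ae (Eventually.of_forall fun t => ?_)
  by_cases ht : t ∈ Icc (-1 : ℝ) 1
  · have hχ : χ (-t) = 1 := χ.one_of_mem_closedBall (by
      rw [mem_closedBall, dist_zero_right, norm_neg, Real.norm_eq_abs]
      exact (abs_le.2 ht).trans (by norm_num))
    simp [f, g, ht, hχ]
  · simp [f, g, ht]

/-- Differentiation of an average of a smooth function. -/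
theorem shiftAvg_fderiv_of_smooth {ν : Measure E} [IsProbabilityMeasure ν]
    (hν : ∀ᵐ z ∂ν, ‖z‖ ≤ 1) (hδ : IsRadius Ω γ δ) (hΩ : IsOpen Ω) {w : E → ℝ}
    (hw : ContDiffOn ℝ ∞ w Ω) (hv : ContDiffOn ℝ ∞ (shiftAvg ν δ w) Ω) {x : E} (hx : x ∈ Ω)
    (a : E) :
    Integrable (fun z => fderiv ℝ w (x + δ x • z) (a + fderiv ℝ δ x a • z)) ν ∧
      fderiv ℝ (shiftAvg ν δ w) x a =
        ∫ z, fderiv ℝ w (x + δ x • z) (a + fderiv ℝ δ x a • z) ∂ν := by
  set N := closedBall (0 : E) 1
  set Φ : ℝ × E → E := fun q => (x + q.1 • a) + δ (x + q.1 • a) • q.2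
  have hc0 : Continuous fun q : ℝ × E => x + q.1 • a := by fun_prop
  have hΦc : Continuous Φ :=
    hc0.add ((hδ.smooth.continuous.comp hc0).smul continuous_snd)
  have hnb : ∀ᶠ s in 𝓝 (0 : ℝ), x + s • a ∈ Ω :=
    (continuous_const.add (continuous_id.smul continuous_const)).tendsto' 0 x (by simp)
      (hΩ.mem_nhds hx)
  obtain ⟨η, hη, hηs⟩ := Metric.nhds_basis_closedBall.eventually_iff.1 hnb
  have hin : ∀ q ∈ closedBall (0 : ℝ) η ×ˢ N, Φ q ∈ Ω := fun q hq =>
    hδ.inside _ (hηs hq.1) _ (le_trans (by simpa [N] using hq.2) one_le_two)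
  set w' : ℝ → E → ℝ := fun s z =>
    fderiv ℝ w (Φ (s, z)) (a + fderiv ℝ δ (x + s • a) a • z)
  have hcomp : IsCompact (closedBall (0 : ℝ) η ×ˢ N) :=
    (isCompact_closedBall _ _).prod (isCompact_closedBall _ _)
  have hw'c : ContinuousOn (Function.uncurry w') (closedBall (0 : ℝ) η ×ˢ N) := by
    refine ContinuousOn.clm_apply ((hw.continuousOn_fderiv_of_isOpen hΩ (by simp)).comp
      hΦc.continuousOn hin) (Continuous.continuousOn ?_)
    exact continuous_const.add
      ((((hδ.smooth.continuous_fderiv (by simp)).comp hc0).clm_apply continuous_const).smul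
        continuous_snd)
  obtain ⟨M, hM⟩ := hcomp.exists_bound_of_continuousOn hw'c
  obtain ⟨M₀, hM₀⟩ := hcomp.exists_bound_of_continuousOn
    (hw.continuousOn.comp hΦc.continuousOn hin)
  have hres : ν.restrict N = ν := Measure.restrict_eq_self_of_ae_mem (by simpa [N] using hν)
  have hmeas : ∀ s ∈ closedBall (0 : ℝ) η, ∀ H : ℝ × E → ℝ,
      ContinuousOn H (closedBall (0 : ℝ) η ×ˢ N) →
      AEStronglyMeasurable (fun z => H (s, z)) ν := by
    intro s hs H hH
    rw [← hres]
    exact (hH.comp (Continuous.prodMk_right s).continuousOn fun z hz => ⟨hs, hz⟩)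
      |>.aestronglyMeasurable (isCompact_closedBall _ _).measurableSet
  have h0 : (0 : ℝ) ∈ closedBall (0 : ℝ) η := mem_closedBall_self hη.le
  obtain ⟨hint, hder⟩ := hasDerivAt_integral_of_dominated_loc_of_deriv_le
    (F := fun s z => w (Φ (s, z))) (F' := w') (bound := fun _ => M) (μ := ν) (x₀ := (0 : ℝ))
    (closedBall_mem_nhds (0 : ℝ) hη)
    (Eventually.mono (closedBall_mem_nhds (0 : ℝ) hη) fun s hs =>
      hmeas s hs _ (hw.continuousOn.comp hΦc.continuousOn hin))
    ((integrable_const M₀).mono' (hmeas 0 h0 _ (hw.continuousOn.comp hΦc.continuousOn hin))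
      (hν.mono fun z hz => hM₀ (0, z) ⟨h0, by simpa [N] using hz⟩))
    (hmeas 0 h0 _ hw'c)
    (hν.mono fun z hz s hs => hM (s, z) ⟨hs, by simpa [N] using hz⟩)
    (integrable_const M)
    (hν.mono fun z hz s hs => by
      have hl : HasDerivAt (fun s : ℝ => x + s • a) a s := by
        simpa using ((hasDerivAt_id s).smul_const a).const_add x
      have hd : HasDerivAt (fun s : ℝ => δ (x + s • a)) (fderiv ℝ δ (x + s • a) a) s :=
        ((hδ.smooth.differentiable (by simp)).differentiableAt.hasFDerivAt).comp_hasDerivAt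
          (f := fun s : ℝ => x + s • a) s hl
      exact ((hw.contDiffAt (hΩ.mem_nhds (hin (s, z) ⟨hs, by simpa [N] using hz⟩))).differentiableAt
        (by simp)).hasFDerivAt.comp_hasDerivAt (f := fun s : ℝ => Φ (s, z)) s
          (hl.add (hd.smul_const z)))
  refine ⟨by simpa [w', Φ] using hint, ?_⟩
  have hline : HasDerivAt (fun s : ℝ => shiftAvg ν δ w (x + s • a))
      (fderiv ℝ (shiftAvg ν δ w) x a) 0 := by
    have h := (hv.contDiffAt (hΩ.mem_nhds hx)).differentiableAt (by simp : (∞ : WithTop ℕ∞) ≠ 0)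
    refine HasFDerivAt.comp_hasDerivAt (l := shiftAvg ν δ w)
      (f := fun s : ℝ => x + s • a) 0 ?_ ?_
    · simpa using h.hasFDerivAt
    · simpa using ((hasDerivAt_id (0:ℝ)).smul_const a).const_add x
  rw [hline.unique hder]
  simp [w', Φ]

/-- The map along the window: `σ ↦ σ δ + u (x + σ δ e)`. -/
def windowFun (δ : E → ℝ) (e : E) (u : E → ℝ) (x : E) (σ : ℝ) : ℝ :=
  σ * δ x + u (x + δ x • σ • e)

/-- The margin of the average over the ends of the window. -/
def margin (δ : E → ℝ) (e : E) (u : E → ℝ) (x : E) : ℝ :=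
  min |windowFun δ e u x 1 - shiftAvg (segMeasure e) δ u x|
    |shiftAvg (segMeasure e) δ u x - windowFun δ e u x (-1)| / 4

lemma continuousOn_windowFun (hδ : IsRadius Ω γ δ) (he : ‖e‖ = 1) {u : E → ℝ}
    (hu : ContinuousOn u Ω) {x : E} (hx : x ∈ Ω) :
    ContinuousOn (windowFun δ e u x) (Icc (-1) 1) :=
  ((continuous_id.mul continuous_const).continuousOn).add (hu.comp
    (Continuous.continuousOn (by fun_prop)) fun σ hσ => hδ.line_mem he hx
      ((abs_le.2 hσ).trans one_le_two))

lemma shiftAvg_seg_eq (hδ : IsRadius Ω γ δ) (he : ‖e‖ = 1) {u : E → ℝ}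
    (hu : ContinuousOn u Ω) {x : E} (hx : x ∈ Ω) :
    shiftAvg (segMeasure e) δ u x = (∫ σ in (-1 : ℝ)..1, windowFun δ e u x σ) / 2 := by
  have he0 : e ≠ 0 := norm_ne_zero_iff.1 (by rw [he]; norm_num)
  have hc : ContinuousOn (fun σ : ℝ => u (x + δ x • σ • e)) (uIcc (-1) 1) := by
    rw [uIcc_of_le (by norm_num)]
    exact hu.comp (Continuous.continuousOn (by fun_prop)) fun σ hσ => hδ.line_mem he hx
      ((abs_le.2 hσ).trans one_le_two)
  rw [shiftAvg, integral_segMeasure he0 fun z => u (x + δ x • z)]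
  simp only [windowFun]
  have hlin : IntervalIntegrable (fun σ : ℝ => σ * δ x) volume (-1) 1 :=
    (continuous_id.mul continuous_const).intervalIntegrable _ _
  rw [intervalIntegral.integral_add hlin hc.intervalIntegrable,
    intervalIntegral.integral_mul_const, integral_id]
  simp
  ring

lemma window_inj (hδ : IsRadius Ω γ δ) (he : ‖e‖ = 1) {u : E → ℝ}
    (hinj : InjOn (fun x => x + u x • e) Ω) {x : E} (hx : x ∈ Ω) :
    InjOn (windowFun δ e u x) (Icc (-1) 1) := by
  intro s hs t ht hst
  have h := hinj (hδ.line_mem he hx ((abs_le.2 hs).trans one_le_two))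
    (hδ.line_mem he hx ((abs_le.2 ht).trans one_le_two)) ?_
  · simp only [add_right_inj, smul_smul] at h
    have he0 : e ≠ 0 := norm_ne_zero_iff.1 (by rw [he]; norm_num)
    exact mul_left_cancel₀ (hδ.pos x hx).ne' (smul_left_injective ℝ he0 h)
  · simp only [smul_smul, add_assoc, ← add_smul]
    simp only [windowFun, smul_smul] at hst
    rw [mul_comm (δ x) s, mul_comm (δ x) t] at hst ⊢
    rw [hst]

lemma avg_strict {F : ℝ → ℝ} (hF : ContinuousOn F (Icc (-1) 1))
    (hm : StrictMonoOn F (Icc (-1) 1)) :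
    F (-1) < (∫ σ in (-1 : ℝ)..1, F σ) / 2 ∧ (∫ σ in (-1 : ℝ)..1, F σ) / 2 < F 1 := by
  have hl : (-1 : ℝ) ∈ Icc (-1 : ℝ) 1 := by norm_num
  have hr : (1 : ℝ) ∈ Icc (-1 : ℝ) 1 := by norm_num
  have h1 := intervalIntegral.integral_lt_integral_of_continuousOn_of_le_of_exists_lt
    (by norm_num) continuousOn_const hF
    (fun σ hσ => hm.monotoneOn hl ⟨hσ.1.le, hσ.2⟩ hσ.1.le) ⟨1, hr, hm hl hr (by norm_num)⟩
  have h2 := intervalIntegral.integral_lt_integral_of_continuousOn_of_le_of_exists_lt
    (by norm_num) hF continuousOn_const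
    (fun σ hσ => hm.monotoneOn ⟨hσ.1.le, hσ.2⟩ hr hσ.2) ⟨-1, hl, hm hl hr (by norm_num)⟩
  simp only [intervalIntegral.integral_const, smul_eq_mul] at h1 h2
  constructor <;> linarith

/-- The average lies strictly between the ends. -/
lemma window_order (hδ : IsRadius Ω γ δ) (he : ‖e‖ = 1) {u : E → ℝ} (hu : ContinuousOn u Ω)
    (hinj : InjOn (fun x => x + u x • e) Ω) {x : E} (hx : x ∈ Ω) :
    (windowFun δ e u x (-1) < shiftAvg (segMeasure e) δ u x ∧
        shiftAvg (segMeasure e) δ u x < windowFun δ e u x 1) ∨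
      (windowFun δ e u x 1 < shiftAvg (segMeasure e) δ u x ∧
        shiftAvg (segMeasure e) δ u x < windowFun δ e u x (-1)) := by
  have hc := continuousOn_windowFun hδ he hu hx
  rw [shiftAvg_seg_eq hδ he hu hx]
  rcases ContinuousOn.strictMonoOn_of_injOn_Icc' (by norm_num) hc (window_inj hδ he hinj hx)
    with hm | hm
  · exact Or.inl (avg_strict hc hm)
  · have h := avg_strict (F := fun σ => -windowFun δ e u x σ) hc.neg hm.neg
    simp only [intervalIntegral.integral_neg] at h
    exact Or.inr ⟨by linarith [h.2], by linarith [h.1]⟩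

lemma margin_pos (hδ : IsRadius Ω γ δ) (he : ‖e‖ = 1) {u : E → ℝ} (hu : ContinuousOn u Ω)
    (hinj : InjOn (fun x => x + u x • e) Ω) {x : E} (hx : x ∈ Ω) : 0 < margin δ e u x := by
  have := window_order hδ he hu hinj hx
  refine div_pos (lt_min (abs_pos.2 ?_) (abs_pos.2 ?_)) (by norm_num) <;>
    rcases this with h | h <;> intro h0 <;> linarith [h.1, h.2]

lemma margin_continuousOn (hδ : IsRadius Ω γ δ) (he : ‖e‖ = 1) {u : E → ℝ}
    (hu : ContinuousOn u Ω) : ContinuousOn (margin δ e u) Ω := by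
  have hd := hδ.smooth.continuous
  have hend : ∀ σ : ℝ, |σ| ≤ 2 → ContinuousOn (fun x => windowFun δ e u x σ) Ω := fun σ hσ =>
    ((continuous_const.mul hd).continuousOn).add (hu.comp
      ((continuous_id.add (hd.smul continuous_const)).continuousOn)
      fun x hx => hδ.line_mem he hx hσ)
  have havg : ContinuousOn (shiftAvg (segMeasure e) δ u) Ω := by
    have he0 : e ≠ 0 := norm_ne_zero_iff.1 (by rw [he]; norm_num)
    set c : ℝ → ℝ := fun σ => max (-1) (min 1 σ)
    have hc : ∀ σ, |c σ| ≤ 2 := fun σ => (abs_le.2 ⟨le_max_left _ _,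
      max_le (by norm_num) (min_le_left _ _)⟩).trans one_le_two
    have hcont : Continuous (Function.uncurry fun (q : Ω) (σ : ℝ) =>
        u ((q : E) + δ q • c σ • e)) := by
      refine hu.comp_continuous (f := fun q : Ω × ℝ => (q.1 : E) + δ q.1 • c q.2 • e) ?_
        fun q => hδ.line_mem he q.1.2 (hc _)
      exact (continuous_subtype_val.comp continuous_fst).add
        ((hd.comp (continuous_subtype_val.comp continuous_fst)).smul
          (((continuous_const.max (continuous_const.min continuous_id)).comp continuous_snd).smul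
            continuous_const))
    have h := intervalIntegral.continuous_parametric_intervalIntegral_of_continuous' hcont (-1) 1
      (μ := volume)
    rw [continuousOn_iff_continuous_restrict]
    refine (continuous_const (y := (1 / 2 : ℝ)).mul h).congr fun q => ?_
    simp only [Set.restrict_apply, shiftAvg]
    rw [integral_segMeasure (F := ℝ) he0 fun z => u ((q : E) + δ q • z), smul_eq_mul, Pi.mul_apply]
    congr 1
    refine intervalIntegral.integral_congr fun σ hσ => ?_
    rw [uIcc_of_le (by norm_num)] at hσ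
    simp [c, max_eq_right hσ.1, min_eq_right hσ.2]
  exact (((continuous_min.comp_continuousOn ((((hend 1 (by norm_num)).sub havg).abs).prodMk
    (havg.sub (hend (-1) (by norm_num))).abs))).div_const 4)

/-- A function within the margin of `u` gives a nonzero derivative along `e`, with the average
strictly inside the window of `u`. -/
theorem window_key (hδ : IsRadius Ω γ δ) (hγ : γ < 1) (he : ‖e‖ = 1) (hΩ : IsOpen Ω) {u : E → ℝ}
    (hu : ContinuousOn u Ω) (hinj : InjOn (fun x => x + u x • e) Ω) {w : E → ℝ}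
    (hw : ContDiffOn ℝ ∞ w Ω) {x : E} (hx : x ∈ Ω)
    (hclose : ∀ σ ∈ Icc (-1 : ℝ) 1,
      |w (x + δ x • σ • e) - u (x + δ x • σ • e)| ≤ margin δ e u x) :
    1 + fderiv ℝ (shiftAvg (segMeasure e) δ w) x e ≠ 0 ∧
      min (windowFun δ e u x (-1)) (windowFun δ e u x 1) < shiftAvg (segMeasure e) δ w x ∧
      shiftAvg (segMeasure e) δ w x < max (windowFun δ e u x (-1)) (windowFun δ e u x 1) := by
  have he0 : e ≠ 0 := norm_ne_zero_iff.1 (by rw [he]; norm_num)
  set F := windowFun δ e w x
  set F₀ := windowFun δ e u x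
  set m := margin δ e u x
  set c := fderiv ℝ δ x e
  have hc : |c| < 1 := by
    have := ((fderiv ℝ δ x).le_opNorm e).trans_eq (by rw [he, mul_one])
    exact lt_of_le_of_lt (this.trans (hδ.deriv x)) hγ
  have hFc : ContinuousOn F (Icc (-1) 1) := continuousOn_windowFun hδ he hw.continuousOn hx
  have hF₀c : ContinuousOn F₀ (Icc (-1) 1) := continuousOn_windowFun hδ he hu hx
  have hdiff : ∀ σ ∈ Icc (-1 : ℝ) 1, |F σ - F₀ σ| ≤ m := by
    intro σ hσ
    have : F σ - F₀ σ = w (x + δ x • σ • e) - u (x + δ x • σ • e) := by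
      simp only [F, F₀, windowFun]; ring
    rw [this]; exact hclose σ hσ
  have hv := shiftAvg_seg_eq hδ he hw.continuousOn hx
  have hv₀ := shiftAvg_seg_eq hδ he hu hx
  set V := shiftAvg (segMeasure e) δ w x
  set V₀ := shiftAvg (segMeasure e) δ u x
  have hVV : |V - V₀| ≤ m := by
    have hi := (hFc.intervalIntegrable_of_Icc (μ := volume) (by norm_num))
    have hi₀ := (hF₀c.intervalIntegrable_of_Icc (μ := volume) (by norm_num))
    have h := intervalIntegral.norm_integral_le_of_norm_le_const
      (a := (-1 : ℝ)) (b := 1) (f := fun σ => F σ - F₀ σ) (C := m) fun σ hσ => by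
        rw [uIoc_of_le (by norm_num)] at hσ
        exact hdiff σ ⟨hσ.1.le, hσ.2⟩
    rw [intervalIntegral.integral_sub hi hi₀, Real.norm_eq_abs] at h
    rw [hv, hv₀, ← sub_div, abs_div, abs_two, div_le_iff₀ two_pos]
    norm_num at h ⊢
    linarith
  -- the derivative
  obtain ⟨-, hD⟩ := shiftAvg_fderiv_of_smooth (segMeasure_ball he) hδ hΩ hw
    (shiftAvg_seg_contDiffOn hδ he hΩ hw) hx e
  set q : ℝ → ℝ := fun σ => fderiv ℝ w (x + δ x • σ • e) e
  have hqc : ContinuousOn q (Icc (-1) 1) :=
    ((hw.continuousOn_fderiv_of_isOpen hΩ (by simp)).comp (Continuous.continuousOn (by fun_prop))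
      fun σ hσ => hδ.line_mem he hx ((abs_le.2 hσ).trans one_le_two)).clm_apply continuousOn_const
  have hD' : fderiv ℝ (shiftAvg (segMeasure e) δ w) x e =
      (∫ σ in (-1 : ℝ)..1, (1 + σ * c) * q σ) / 2 := by
    rw [hD, integral_segMeasure he0 fun z => fderiv ℝ w (x + δ x • z) (e + c • z)]
    rw [smul_eq_mul, one_div, inv_mul_eq_div]
    congr 1
    refine intervalIntegral.integral_congr fun σ _ => ?_
    simp only [q, map_add, map_smul, smul_eq_mul]
    ring
  have hFd : ∀ σ ∈ Icc (-1 : ℝ) 1, HasDerivAt F (δ x * (1 + q σ)) σ := by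
    intro σ hσ
    have hl : HasDerivAt (fun σ : ℝ => x + δ x • σ • e) (δ x • e) σ := by
      simpa using (((hasDerivAt_id σ).smul_const e).const_smul (δ x)).const_add x
    have h := ((hw.contDiffAt (hΩ.mem_nhds (hδ.line_mem he hx
      ((abs_le.2 hσ).trans one_le_two)))).differentiableAt (by simp)).hasFDerivAt.comp_hasDerivAt
        (f := fun σ : ℝ => x + δ x • σ • e) σ hl
    have := ((hasDerivAt_id σ).mul_const (δ x)).add h
    rw [map_smul, smul_eq_mul] at this
    exact this.congr_deriv (by simp only [q]; ring)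
  have hmain : 2 * δ x * (1 + fderiv ℝ (shiftAvg (segMeasure e) δ w) x e) =
      (1 + c) * (F 1 - V) + (1 - c) * (V - F (-1)) := by
    have hP : ∀ σ ∈ uIcc (-1 : ℝ) 1, HasDerivAt (fun σ => (1 + σ * c) * F σ)
        (c * F σ + (1 + σ * c) * (δ x * (1 + q σ))) σ := by
      intro σ hσ
      rw [uIcc_of_le (by norm_num)] at hσ
      simpa using (((hasDerivAt_id σ).mul_const c).const_add 1).fun_mul (hFd σ hσ)
    have hi1 : IntervalIntegrable (fun σ => c * F σ) volume (-1) 1 :=
      ((hFc.intervalIntegrable_of_Icc (μ := volume) (by norm_num)).const_mul c)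
    have hlin : ContinuousOn (fun σ : ℝ => 1 + σ * c) (Icc (-1) 1) :=
      Continuous.continuousOn (by fun_prop)
    have hi2 : IntervalIntegrable (fun σ => δ x * (1 + σ * c)) volume (-1) 1 :=
      (continuousOn_const.mul hlin).intervalIntegrable_of_Icc (by norm_num)
    have hi3 : IntervalIntegrable (fun σ => δ x * ((1 + σ * c) * q σ)) volume (-1) 1 :=
      (continuousOn_const.mul (hlin.mul hqc)).intervalIntegrable_of_Icc (by norm_num)
    have hi : IntervalIntegrable
        (fun σ => c * F σ + (1 + σ * c) * (δ x * (1 + q σ))) volume (-1) 1 := by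
      refine (hi1.add (hi2.add hi3)).congr fun σ _ => ?_
      ring
    have h := intervalIntegral.integral_eq_sub_of_hasDerivAt hP hi
    rw [intervalIntegral.integral_congr (g := fun σ => c * F σ + (δ x * (1 + σ * c) +
      δ x * ((1 + σ * c) * q σ))) (fun σ _ => by ring),
      intervalIntegral.integral_add hi1 (hi2.add hi3), intervalIntegral.integral_add hi2 hi3,
      intervalIntegral.integral_const_mul, intervalIntegral.integral_const_mul,
      intervalIntegral.integral_const_mul] at h
    have hlinint : ∫ σ in (-1 : ℝ)..1, (1 + σ * c) = 2 := by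
      have hl1 : IntervalIntegrable (fun σ : ℝ => σ * c) volume (-1) 1 :=
        (continuous_id.mul continuous_const).intervalIntegrable _ _
      rw [intervalIntegral.integral_add intervalIntegrable_const hl1,
        intervalIntegral.integral_mul_const, integral_id]
      simp; norm_num
    rw [hlinint] at h
    rw [hD', hv]
    linear_combination h
  have hm4 := margin_pos hδ he hu hinj hx
  have hb1 := abs_le.1 (hdiff 1 (by norm_num))
  have hb2 := abs_le.1 (hdiff (-1) (by norm_num))
  have hb3 := abs_le.1 hVV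
  have hmdef : 4 * m ≤ |F₀ 1 - V₀| ∧ 4 * m ≤ |V₀ - F₀ (-1)| := by
    simp only [m, margin]
    refine ⟨?_, ?_⟩ <;>
      rw [mul_div_cancel₀ _ (by norm_num : (4 : ℝ) ≠ 0)]
    · exact min_le_left _ _
    · exact min_le_right _ _
  obtain ⟨hc1, hc2⟩ := abs_lt.1 hc
  rcases window_order hδ he hu hinj hx with ⟨h1, h2⟩ | ⟨h1, h2⟩
  · change F₀ (-1) < V₀ at h1
    change V₀ < F₀ 1 at h2
    rw [abs_of_pos (sub_pos.2 h2), abs_of_pos (sub_pos.2 h1)] at hmdef
    refine ⟨fun h0 => ?_, ?_, ?_⟩
    · rw [h0, mul_zero] at hmain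
      nlinarith [mul_pos (by linarith : 0 < 1 + c) (by linarith : 0 < F 1 - V),
        mul_pos (by linarith : 0 < 1 - c) (by linarith : 0 < V - F (-1))]
    · exact (min_le_left _ _).trans_lt (by linarith)
    · exact lt_of_lt_of_le (by linarith : V < F₀ 1) (le_max_right _ _)
  · change F₀ 1 < V₀ at h1
    change V₀ < F₀ (-1) at h2
    rw [abs_of_neg (sub_neg.2 h1), abs_of_neg (sub_neg.2 h2)] at hmdef
    refine ⟨fun h0 => ?_, ?_, ?_⟩
    · rw [h0, mul_zero] at hmain
      nlinarith [mul_pos (by linarith : 0 < 1 + c) (by linarith : 0 < V - F 1),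
        mul_pos (by linarith : 0 < 1 - c) (by linarith : 0 < F (-1) - V)]
    · exact (min_le_right _ _).trans_lt (by linarith)
    · exact lt_of_lt_of_le (by linarith : V < F₀ (-1)) (le_max_left _ _)

end

end Vale.Agent.P073
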