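import Vale.Agent.P073.Op
import Vale.Agent.P073.Window
import Vale.Agent.P073.Fibre
import Vale.Agent.P073.Spec

/-!
The scalar approximation: mollify with a radius finer than the margin, then average along the
direction over windows that stay inside the domain.
-/

open Set Metric Filter MeasureTheory Module
open scoped ContDiff Topology ENNReal

namespace Vale.Agent.P073

noncomputable section

variable {E : Type*} [NormedAddCommGroup E] [NormedSpace ℝ E] [FiniteDimensional ℝ E]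
  [MeasurableSpace E] [BorelSpace E]

/-- The derivative of an average differs from `G` by the averaged differences. -/
lemma enorm_avg_sub_le {ν : Measure E} [IsProbabilityMeasure ν] (hν : ∀ᵐ z ∂ν, ‖z‖ ≤ 1)
    {G H : E → E →L[ℝ] ℝ} (hG : StronglyMeasurable G) (hH : StronglyMeasurable H)
    {L c : E →L[ℝ] ℝ} {γ : ℝ} (hc : ‖c‖ ≤ γ) (hγ : γ ≤ 1) {x : E} {t : ℝ}
    (hL : ∀ a, L a = ∫ z, H (x + t • z) (a + c a • z) ∂ν) :
    ‖L - G x‖ₑ ≤ 2 * (∫⁻ z, ‖H (x + t • z) - G (x + t • z)‖ₑ ∂ν) +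
      2 * (∫⁻ z, ‖G (x + t • z) - G x‖ₑ ∂ν) + ENNReal.ofReal γ * ‖G x‖ₑ := by
  set A := ∫⁻ z, ‖H (x + t • z) - G (x + t • z)‖ₑ ∂ν
  set B := ∫⁻ z, ‖G (x + t • z) - G x‖ₑ ∂ν
  by_cases hA : A = ⊤
  · simp [hA]
  by_cases hB : B = ⊤
  · simp [hB]
  have hγ0 : 0 ≤ γ := (norm_nonneg c).trans hc
  have hT : Measurable fun z : E => x + t • z :=
    (continuous_const.add (continuous_id.const_smul t)).measurable
  have hHT := hH.comp_measurable hT
  have hGT := hG.comp_measurable hT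
  have hfA : Integrable (fun z => H (x + t • z) - G (x + t • z)) ν :=
    ⟨(hHT.sub hGT).aestronglyMeasurable, lt_top_iff_ne_top.2 hA⟩
  have hfB : Integrable (fun z => G (x + t • z) - G x) ν :=
    ⟨(hGT.sub stronglyMeasurable_const).aestronglyMeasurable, lt_top_iff_ne_top.2 hB⟩
  have eA : A.toReal = ∫ z, ‖H (x + t • z) - G (x + t • z)‖ ∂ν := by
    rw [integral_norm_eq_lintegral_enorm hfA.1]
  have eB : B.toReal = ∫ z, ‖G (x + t • z) - G x‖ ∂ν := by
    rw [integral_norm_eq_lintegral_enorm hfB.1]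
  set M := 2 * A.toReal + 2 * B.toReal + γ * ‖G x‖
  suffices hM : ‖L - G x‖ ≤ M by
    rw [← ofReal_norm]
    refine (ENNReal.ofReal_le_ofReal hM).trans ?_
    simp only [M]
    rw [ENNReal.ofReal_add (by positivity) (by positivity),
      ENNReal.ofReal_add (by positivity) (by positivity), ENNReal.ofReal_mul zero_le_two,
      ENNReal.ofReal_mul zero_le_two, ENNReal.ofReal_mul hγ0, ENNReal.ofReal_toReal hA,
      ENNReal.ofReal_toReal hB, ofReal_norm, ENNReal.ofReal_ofNat]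
  refine ContinuousLinearMap.opNorm_le_bound _ (by positivity) fun a => ?_
  have hca : |c a| ≤ γ * ‖a‖ := (c.le_opNorm a).trans (by gcongr)
  set bound : E → ℝ := fun z => (2 * ‖H (x + t • z) - G (x + t • z)‖ +
    2 * ‖G (x + t • z) - G x‖ + γ * ‖G x‖) * ‖a‖
  have hb : Integrable bound ν :=
    (((hfA.norm.const_mul 2).add (hfB.norm.const_mul 2)).add (integrable_const _)).mul_const _
  have hm : AEStronglyMeasurable (fun z => H (x + t • z) (a + c a • z) - G x a) ν := by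
    refine AEStronglyMeasurable.sub ?_ aestronglyMeasurable_const
    exact ((isBoundedBilinearMap_apply.continuous).comp_stronglyMeasurable
      (hHT.prodMk (continuous_const.add (continuous_id.const_smul (c a))).stronglyMeasurable))
      |>.aestronglyMeasurable
  have hpt : ∀ᵐ z ∂ν, ‖H (x + t • z) (a + c a • z) - G x a‖ ≤ bound z := by
    filter_upwards [hν] with z hz
    set D := H (x + t • z) - G x
    have hD : ‖D‖ ≤ ‖H (x + t • z) - G (x + t • z)‖ + ‖G (x + t • z) - G x‖ := by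
      refine le_of_eq_of_le ?_ (norm_add_le _ _)
      simp [D]
    have e : H (x + t • z) (a + c a • z) - G x a = D (a + c a • z) + c a * G x z := by
      simp [D]; ring
    have h1 : ‖a + c a • z‖ ≤ 2 * ‖a‖ := by
      refine (norm_add_le _ _).trans ?_
      rw [norm_smul, Real.norm_eq_abs]
      nlinarith [mul_le_mul hca hz (norm_nonneg z) (by positivity), norm_nonneg a]
    have h2 : |c a * G x z| ≤ γ * ‖G x‖ * ‖a‖ := by
      rw [abs_mul]
      calc |c a| * |G x z| ≤ (γ * ‖a‖) * (‖G x‖ * 1) :=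
            mul_le_mul hca (((G x).le_opNorm z).trans (by gcongr)) (abs_nonneg _) (by positivity)
        _ = γ * ‖G x‖ * ‖a‖ := by ring
    rw [e]
    refine (norm_add_le _ _).trans ?_
    simp only [bound, Real.norm_eq_abs] at *
    nlinarith [D.le_opNorm (a + c a • z), Real.norm_eq_abs (D (a + c a • z)),
      mul_le_mul hD h1 (norm_nonneg _) (by positivity)]
  have hint : Integrable (fun z => H (x + t • z) (a + c a • z) - G x a) ν := hb.mono' hm hpt
  have hint' : Integrable (fun z => H (x + t • z) (a + c a • z)) ν :=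
    (hint.add (integrable_const (G x a))).congr (Eventually.of_forall fun z => by simp)
  rw [ContinuousLinearMap.sub_apply, hL a,
    show (∫ z, H (x + t • z) (a + c a • z) ∂ν) - G x a =
      ∫ z, (H (x + t • z) (a + c a • z) - G x a) ∂ν by
        rw [integral_sub hint' (integrable_const _)]; simp]
  refine (norm_integral_le_of_norm_le hb hpt).trans (le_of_eq ?_)
  simp only [bound, M, integral_mul_const]
  have i1 : Integrable (fun z => 2 * ‖H (x + t • z) - G (x + t • z)‖ +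
      2 * ‖G (x + t • z) - G x‖) ν := (hfA.norm.const_mul 2).add (hfB.norm.const_mul 2)
  rw [integral_add i1 (integrable_const _),
    integral_add (hfA.norm.const_mul 2) (hfB.norm.const_mul 2), integral_const_mul,
    integral_const_mul, eA, eB]
  simp

lemma rpow_add₃_le (a b c : ℝ≥0∞) {p : ℝ} (hp : 1 ≤ p) :
    (a + b + c) ^ p ≤ 2 ^ (p - 1) * 2 ^ (p - 1) * (a ^ p + b ^ p + c ^ p) := by
  have h1 : (1 : ℝ≥0∞) ≤ 2 ^ (p - 1) := (ENNReal.one_rpow (p - 1)).ge.trans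
    (ENNReal.rpow_le_rpow (by norm_num) (by linarith))
  calc (a + b + c) ^ p ≤ 2 ^ (p - 1) * ((a + b) ^ p + c ^ p) :=
        ENNReal.rpow_add_le_mul_rpow_add_rpow _ _ hp
    _ ≤ 2 ^ (p - 1) * (2 ^ (p - 1) * (a ^ p + b ^ p) + 2 ^ (p - 1) * c ^ p) := by
        gcongr
        · exact ENNReal.rpow_add_le_mul_rpow_add_rpow _ _ hp
        · exact le_mul_of_one_le_left zero_le h1
    _ = _ := by ring

variable {μ : Measure E} [μ.IsAddHaarMeasure] {Ω : Set E} {δ : E → ℝ} {e : E}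

/-- The bound on the derivative of one averaging step. -/
lemma lintegral_deriv_step {ν : Measure E} [IsProbabilityMeasure ν] (hν : ∀ᵐ z ∂ν, ‖z‖ ≤ 1)
    {p γ : ℝ} (hp : 1 ≤ p) (hγ : γ ≤ 1 / 2) (hr : IsRadius Ω γ δ) (hΩ : MeasurableSet Ω)
    {G H : E → E →L[ℝ] ℝ} (hG : StronglyMeasurable G) (hH : StronglyMeasurable H) {v : E → ℝ}
    (hv : ∀ x ∈ Ω, ∀ a, fderiv ℝ v x a =
      ∫ z, H (x + δ x • z) (a + fderiv ℝ δ x a • z) ∂ν) {a b : ℝ≥0∞}
    (hG' : ∫⁻ x in Ω, (∫⁻ z, ‖G (x + δ x • z) - G x‖ₑ ∂ν) ^ p ∂μ ≤ a)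
    (hGγ : ENNReal.ofReal γ ^ p * ∫⁻ x, ‖G x‖ₑ ^ p ∂μ ≤ a)
    (hHG : ∫⁻ x in Ω, ‖H x - G x‖ₑ ^ p ∂μ ≤ b) :
    ∫⁻ x in Ω, ‖fderiv ℝ v x - G x‖ₑ ^ p ∂μ ≤
      2 ^ (p - 1) * 2 ^ (p - 1) * (2 ^ p * (2 * b) + 2 ^ p * a + a) := by
  have hp0 : 0 ≤ p := by linarith
  have hK : (2 : ℝ≥0∞) ^ (p - 1) * 2 ^ (p - 1) ≠ ⊤ :=
    ENNReal.mul_ne_top (ENNReal.rpow_ne_top_of_nonneg (by linarith) (by simp))
      (ENNReal.rpow_ne_top_of_nonneg (by linarith) (by simp))
  have h2 : (2 : ℝ≥0∞) ^ p ≠ ⊤ := ENNReal.rpow_ne_top_of_nonneg hp0 (by simp)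
  set F : E → ℝ≥0∞ := Ω.indicator fun y => ‖H y - G y‖ₑ
  have hF : Measurable F := ((hH.sub hG).enorm).indicator hΩ
  have hd : Differentiable ℝ δ := hr.smooth.differentiable (by simp)
  have hc : Continuous fun q : E × E => q.1 + δ q.1 • q.2 :=
    continuous_fst.add ((hd.continuous.comp continuous_fst).smul continuous_snd)
  set A : E → ℝ≥0∞ := fun x => ∫⁻ z, F (x + δ x • z) ∂ν
  set B : E → ℝ≥0∞ := fun x => ∫⁻ z, ‖G (x + δ x • z) - G x‖ₑ ∂ν
  have hAm : Measurable A := (hF.comp hc.measurable).lintegral_prod_right'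
  have hBm : Measurable B :=
    ((hG.comp_measurable hc.measurable).sub (hG.comp_measurable measurable_fst)).enorm
      |>.lintegral_prod_right'
  have hpt : ∀ x ∈ Ω, ‖fderiv ℝ v x - G x‖ₑ ^ p ≤ 2 ^ (p - 1) * 2 ^ (p - 1) *
      (2 ^ p * A x ^ p + 2 ^ p * B x ^ p + ENNReal.ofReal γ ^ p * ‖G x‖ₑ ^ p) := by
    intro x hx
    have h := enorm_avg_sub_le hν hG hH (hr.deriv x) (by linarith) (hv x hx)
    have hA : ∫⁻ z, ‖H (x + δ x • z) - G (x + δ x • z)‖ₑ ∂ν = A x := by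
      refine lintegral_congr_ae ?_
      filter_upwards [hν] with z hz
      simp [F, indicator_of_mem (hr.inside x hx z (hz.trans one_le_two))]
    rw [hA] at h
    refine (ENNReal.rpow_le_rpow h hp0).trans ((rpow_add₃_le _ _ _ hp).trans_eq ?_)
    rw [ENNReal.mul_rpow_of_nonneg _ _ hp0, ENNReal.mul_rpow_of_nonneg _ _ hp0,
      ENNReal.mul_rpow_of_nonneg _ _ hp0]
  refine (setLIntegral_mono' hΩ hpt).trans ?_
  rw [lintegral_const_mul' _ _ hK,
    lintegral_add_left (((hAm.pow_const p).const_mul _).fun_add ((hBm.pow_const p).const_mul _)),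
    lintegral_add_left ((hAm.pow_const p).const_mul _), lintegral_const_mul' _ _ h2,
    lintegral_const_mul' _ _ h2,
    lintegral_const_mul' _ _ (ENNReal.rpow_ne_top_of_nonneg hp0 ENNReal.ofReal_ne_top)]
  gcongr
  · refine (setLIntegral_le_lintegral _ _).trans ((lintegral_shift_rpow_le μ ν hν hp δ hd
      (fun x => (hr.deriv x).trans hγ) F hF).trans (mul_le_mul_right ?_ _))
    refine le_of_eq_of_le ?_ hHG
    rw [← lintegral_indicator hΩ]
    refine lintegral_congr fun x => ?_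
    by_cases hx : x ∈ Ω <;> simp [F, hx, ENNReal.zero_rpow_of_pos (by linarith : 0 < p)]
  · exact (mul_le_mul_right (setLIntegral_le_lintegral _ _) _).trans hGγ

/-- A radius so fine that mollification stays within the margin. -/
lemma exists_mollify_fine {γ : ℝ} (hδ : IsRadius Ω γ δ) (hγ0 : 0 < γ) (hγ : γ ≤ 1 / 2)
    (he : ‖e‖ = 1) (hΩ : IsOpen Ω) (hbd : Bornology.IsBounded Ω) {u : E → ℝ}
    (hu : ContinuousOn u Ω) (hinj : InjOn (fun x => x + u x • e) Ω) {ε₀ : ℝ} (hε₀ : 0 < ε₀) :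
    ∃ r : E → ℝ, IsRadius Ω γ r ∧ (∀ x, r x ≤ δ x) ∧
      (∀ y ∈ Ω, |shiftAvg (mollMeasure μ) r u y - u y| ≤ ε₀) ∧
      ∀ x ∈ Ω, ∀ σ ∈ Icc (-1 : ℝ) 1,
        |shiftAvg (mollMeasure μ) r u (x + δ x • σ • e) - u (x + δ x • σ • e)| ≤
          margin δ e u x := by
  have hsub : ∀ c : ℝ, 0 < c → {x | c ≤ δ x} ⊆ Ω := fun c hc x hx => by
    by_contra h
    have := hδ.zero x h
    simp only [mem_ofPred_eq] at hx
    linarith
  have hη : ∀ k : ℕ, ∃ η : ℝ, 0 < η ∧ η ≤ ε₀ ∧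
      ∀ x ∈ Ω, 1 / (2 * (k + 1 : ℝ)) ≤ δ x → η ≤ margin δ e u x := by
    intro k
    have hc : (0 : ℝ) < 1 / (2 * (k + 1 : ℝ)) := by positivity
    set C := {x | 1 / (2 * (k + 1 : ℝ)) ≤ δ x}
    rcases C.eq_empty_or_nonempty with hC | hC
    · refine ⟨ε₀, hε₀, le_rfl, fun x _ h => absurd (show x ∈ C from h) (by simp [hC])⟩
    · obtain ⟨x₀, hx₀, hmin⟩ := (hδ.isCompact_ge hbd hc).exists_isMinOn hC
        ((margin_continuousOn hδ he hu).mono (hsub _ hc))
      exact ⟨min ε₀ (margin δ e u x₀),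
        lt_min hε₀ (margin_pos hδ he hu hinj (hsub _ hc hx₀)), min_le_left _ _,
        fun x _ h => (min_le_right _ _).trans (hmin h)⟩
  choose η hη0 hηε hηm using hη
  have ha : ∀ k : ℕ, ∃ a : ℝ, 0 < a ∧ ∀ y, 1 / (k + 1 : ℝ) ≤ δ y → ∀ z : E, ‖z‖ ≤ a →
      |u (y + z) - u y| ≤ η k := by
    intro k
    have hc : (0 : ℝ) < 1 / (k + 1 : ℝ) := by positivity
    have hK := hδ.isCompact_ge hbd hc
    obtain ⟨a₀, ha₀, hK'⟩ := hK.exists_cthickening_subset_open hΩ (hsub _ hc)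
    obtain ⟨b, hb, hbu⟩ := Metric.uniformContinuousOn_iff.1
      (hK.cthickening.uniformContinuousOn_of_continuous (hu.mono hK')) (η k) (hη0 k)
    refine ⟨min a₀ (b / 2), lt_min ha₀ (half_pos hb), fun y hy z hz => ?_⟩
    have hyz : y + z ∈ cthickening a₀ {x | 1 / (k + 1 : ℝ) ≤ δ x} :=
      mem_cthickening_of_dist_le _ y _ _ hy (by
        simpa [dist_eq_norm] using hz.trans (min_le_left _ _))
    refine (hbu _ hyz _ (self_subset_cthickening _ hy) ?_).le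
    rw [dist_eq_norm, add_sub_cancel_left]
    linarith [hz.trans (min_le_right _ _)]
  choose a ha0 hau using ha
  obtain ⟨r, hr, hrδ, hra⟩ := exists_fine_radius hδ hbd a ha0 hγ0
  have hclose : ∀ y ∈ Ω, |shiftAvg (mollMeasure μ) r u y - u y| ≤ η ⌊1 / δ y⌋₊ := by
    intro y hy
    set k := ⌊1 / δ y⌋₊
    have hd := hδ.pos y hy
    have hk1 : (k : ℝ) ≤ 1 / δ y := Nat.floor_le (by positivity)
    have hk2 : 1 / δ y < k + 1 := Nat.lt_floor_add_one _
    have hk0 : 0 < k := Nat.floor_pos.2 ((one_le_div hd).2 (by linarith [hδ.le y]))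
    have h1 : δ y ≤ 1 / (k : ℝ) := by
      rw [le_div_iff₀ hd] at hk1
      rw [le_div_iff₀ (by exact_mod_cast hk0)]
      linarith
    have h2 : 1 / (k + 1 : ℝ) ≤ δ y := by
      rw [div_lt_iff₀ hd] at hk2
      rw [div_le_iff₀ (by positivity)]
      linarith
    have hrk := hra k y h1
    have hb : ∀ᵐ z ∂mollMeasure μ, ‖u (y + r y • z) - u y‖ ≤ η k := by
      filter_upwards [mollMeasure_ball μ] with z hz
      refine hau k y h2 _ ?_
      rw [norm_smul, Real.norm_eq_abs, abs_of_nonneg (hr.nonneg y)]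
      calc r y * ‖z‖ ≤ a k * 1 := mul_le_mul hrk hz (norm_nonneg _) (ha0 k).le
        _ = a k := mul_one _
    have hm : AEStronglyMeasurable (fun z => u (y + r y • z)) (mollMeasure μ) := by
      have hres : (mollMeasure μ).restrict (closedBall (0 : E) 1) = mollMeasure μ :=
        Measure.restrict_eq_self_of_ae_mem (by simpa using mollMeasure_ball μ)
      rw [← hres]
      exact (hu.comp (Continuous.continuousOn (by fun_prop)) fun z hz =>
        hr.inside y hy z (le_trans (by simpa using hz) one_le_two)).aestronglyMeasurable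
          (isCompact_closedBall _ _).measurableSet
    have hint : Integrable (fun z => u (y + r y • z)) (mollMeasure μ) :=
      ((integrable_const (η k)).mono' (hm.sub aestronglyMeasurable_const) hb).add
        (integrable_const (u y)) |>.congr (Eventually.of_forall fun z => by simp)
    rw [shiftAvg, show (∫ z, u (y + r y • z) ∂mollMeasure μ) - u y =
      ∫ z, (u (y + r y • z) - u y) ∂mollMeasure μ by
        rw [integral_sub hint (integrable_const _)]; simp, ← Real.norm_eq_abs]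
    simpa using norm_integral_le_of_norm_le_const hb
  refine ⟨r, hr, hrδ, fun y hy => (hclose y hy).trans (hηε _), fun x hx σ hσ => ?_⟩
  set y := x + δ x • σ • e
  have hy : y ∈ Ω := hδ.line_mem he hx ((abs_le.2 hσ).trans one_le_two)
  refine (hclose y hy).trans (hηm _ x hx ?_)
  have hlip := hδ.lipschitz y x
  have hσe : ‖y - x‖ ≤ δ x := by
    simp only [y, add_sub_cancel_left, norm_smul, he, mul_one, Real.norm_eq_abs,
      abs_of_nonneg (hδ.nonneg x)]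
    exact mul_le_of_le_one_right (hδ.nonneg x) (abs_le.2 hσ)
  have h2 : δ y ≤ 2 * δ x := by
    nlinarith [abs_le.1 hlip, mul_le_mul hγ hσe (norm_nonneg _) (by norm_num), hδ.nonneg x]
  have hk2 : 1 / δ y < ⌊1 / δ y⌋₊ + 1 := Nat.lt_floor_add_one _
  rw [div_lt_iff₀ (hδ.pos y hy)] at hk2
  rw [div_le_iff₀ (by positivity)]
  have h0 : (0 : ℝ) ≤ (⌊1 / δ y⌋₊ : ℝ) := Nat.cast_nonneg _
  nlinarith

/-- The bound on the values. -/
lemma lintegral_value_step {p γ : ℝ} (hp : 1 ≤ p) (he : ‖e‖ = 1) (hδ : IsRadius Ω γ δ)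
    (hΩ : MeasurableSet Ω) {u w : E → ℝ} (hu : StronglyMeasurable (Ω.indicator u))
    (hw : ContinuousOn w Ω) {ε₀ : ℝ} (hclose : ∀ y ∈ Ω, |w y - u y| ≤ ε₀) {a : ℝ≥0∞}
    (hε₀ : ENNReal.ofReal ε₀ ^ p * μ Ω ≤ a)
    (hu' : ∫⁻ x in Ω, (∫⁻ z, ‖Ω.indicator u (x + δ x • z) - Ω.indicator u x‖ₑ
      ∂segMeasure e) ^ p ∂μ ≤ a) :
    ∫⁻ x in Ω, ‖shiftAvg (segMeasure e) δ w x - u x‖ₑ ^ p ∂μ ≤ 2 ^ (p - 1) * (a + a) := by
  set B : E → ℝ≥0∞ := fun x =>
    ∫⁻ z, ‖Ω.indicator u (x + δ x • z) - Ω.indicator u x‖ₑ ∂segMeasure e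
  have hpt : ∀ x ∈ Ω, ‖shiftAvg (segMeasure e) δ w x - u x‖ₑ ^ p ≤
      2 ^ (p - 1) * (ENNReal.ofReal ε₀ ^ p + B x ^ p) := by
    intro x hx
    refine (ENNReal.rpow_le_rpow ?_ (by linarith)).trans
      (ENNReal.rpow_add_le_mul_rpow_add_rpow _ _ hp)
    have hint : Integrable (fun z => w (x + δ x • z)) (segMeasure e) := by
      have hres : (segMeasure e).restrict (closedBall (0 : E) 1) = segMeasure e :=
        Measure.restrict_eq_self_of_ae_mem (by simpa using segMeasure_ball he)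
      rw [← hres]
      exact (hw.comp (Continuous.continuousOn (by fun_prop)) fun z hz =>
        hδ.inside x hx z (le_trans (by simpa using hz) one_le_two)).integrableOn_compact
          (isCompact_closedBall _ _)
    rw [show shiftAvg (segMeasure e) δ w x - u x =
      ∫ z, (w (x + δ x • z) - u x) ∂segMeasure e by
        rw [integral_sub hint (integrable_const _)]; simp [shiftAvg]]
    refine (enorm_integral_le_lintegral_enorm _).trans ?_
    refine (lintegral_mono_ae (g := fun z => ENNReal.ofReal ε₀ +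
      ‖Ω.indicator u (x + δ x • z) - Ω.indicator u x‖ₑ) ?_).trans_eq ?_
    · filter_upwards [segMeasure_ball he] with z hz
      have hy := hδ.inside x hx z (hz.trans one_le_two)
      simp only [indicator_of_mem hy, indicator_of_mem hx]
      rw [show w (x + δ x • z) - u x =
        (w (x + δ x • z) - u (x + δ x • z)) + (u (x + δ x • z) - u x) by ring]
      refine (enorm_add_le _ _).trans (add_le_add ?_ le_rfl)
      rw [Real.enorm_eq_ofReal_abs]
      exact ENNReal.ofReal_le_ofReal (hclose _ hy)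
    · rw [lintegral_add_left measurable_const]
      simp [B]
  refine (setLIntegral_mono' hΩ hpt).trans ?_
  rw [lintegral_const_mul' _ _ (ENNReal.rpow_ne_top_of_nonneg (by linarith) (by simp)),
    lintegral_add_left measurable_const, setLIntegral_const]
  gcongr

/-- Positive rates with `γ ^ p * M` below `a`. -/
lemma eventually_rpow_mul_le {p : ℝ} (hp : 0 < p) {M a : ℝ≥0∞} (hM : M ≠ ⊤) (ha : a ≠ 0) :
    ∀ᶠ γ : ℝ in 𝓝[>] 0, ENNReal.ofReal γ ^ p * M ≤ a := by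
  have h : Tendsto (fun η : ℝ => ENNReal.ofReal η ^ p) (𝓝[>] 0) (𝓝 0) := by
    have := (ENNReal.continuous_rpow_const (y := p)).comp ENNReal.continuous_ofReal
    simpa [Function.comp_def, hp] using (this.tendsto 0).mono_left nhdsWithin_le_nhds
  have h' := ENNReal.Tendsto.mul_const h (Or.inr hM)
  rw [zero_mul] at h'
  exact h'.eventually (eventually_le_nhds (pos_iff_ne_zero.2 ha))

lemma WeakGrad.congr_ae {u : E → ℝ} {G G' : E → E →L[ℝ] ℝ} (hw : WeakGrad μ Ω u G)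
    (hΩ : MeasurableSet Ω) (h : G =ᵐ[μ.restrict Ω] G') : WeakGrad μ Ω u G' := by
  intro φ hφ hcs hts a
  rw [hw φ hφ hcs hts a]
  congr 1
  refine integral_congr_ae ?_
  filter_upwards [(ae_restrict_iff' hΩ).1 h] with x hx
  by_cases h : x ∈ Ω
  · rw [hx h]
  · simp [image_eq_zero_of_notMem_tsupport fun hx' => h (hts hx')]

lemma lintegral_rpow_ne_top {W : Type*} [NormedAddCommGroup W] {p : ℝ} (hp : 0 < p) {F : E → W}
    {ν : Measure E} (h : MemLp F (ENNReal.ofReal p) ν) : (∫⁻ x, ‖F x‖ₑ ^ p ∂ν) ≠ ⊤ := by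
  have := lintegral_rpow_enorm_lt_top_of_eLpNorm_lt_top (ENNReal.ofReal_pos.2 hp).ne'
    ENNReal.ofReal_ne_top h.2
  rw [ENNReal.toReal_ofReal hp.le] at this
  exact this.ne

lemma memLp_of_close {W : Type*} [NormedAddCommGroup W] {p : ℝ} (hp : 0 < p) {F F' : E → W}
    {b : ℝ≥0∞} (hb : b ≠ ⊤) (hF : AEStronglyMeasurable F (μ.restrict Ω))
    (hF' : MemLp F' (ENNReal.ofReal p) (μ.restrict Ω))
    (hle : ∫⁻ x in Ω, ‖F x - F' x‖ₑ ^ p ∂μ ≤ b) :
    MemLp F (ENNReal.ofReal p) (μ.restrict Ω) := by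
  have h : MemLp (F - F') (ENNReal.ofReal p) (μ.restrict Ω) := by
    refine ⟨hF.sub hF'.1, eLpNorm_lt_top_iff_lintegral_rpow_enorm_lt_top
      (ENNReal.ofReal_pos.2 hp).ne' ENNReal.ofReal_ne_top |>.2 ?_⟩
    rw [ENNReal.toReal_ofReal hp.le]
    exact lt_of_le_of_lt hle (lt_top_iff_ne_top.2 hb)
  simpa using h.add hF'

/-- A globally defined representative. -/
lemma exists_global_rep {W : Type*} [NormedAddCommGroup W] [NormedSpace ℝ W] {q : ℝ≥0∞}
    {G : E → W} (hΩ : MeasurableSet Ω) (hG : MemLp G q (μ.restrict Ω)) :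
    ∃ G₀ : E → W, StronglyMeasurable G₀ ∧ G =ᵐ[μ.restrict Ω] G₀ ∧ MemLp G₀ q μ := by
  refine ⟨Ω.indicator (hG.1.mk G), hG.1.stronglyMeasurable_mk.indicator hΩ, ?_,
    (memLp_indicator_iff_restrict hΩ).2 (hG.ae_eq hG.1.ae_eq_mk)⟩
  filter_upwards [hG.1.ae_eq_mk, ae_restrict_mem hΩ] with x hx hxΩ
  simp [hxΩ, hx]

/-- Windows and radius of size `γ` give the approximation. -/
theorem approx_of_size {p γ : ℝ} (hp : 1 ≤ p) (hγ0 : 0 < γ) (hγh : γ ≤ 1 / 2) (hΩ : IsOpen Ω)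
    (hbd : Bornology.IsBounded Ω) (he : ‖e‖ = 1) {u : E → ℝ} {G : E → E →L[ℝ] ℝ}
    (hu : ContinuousOn u Ω) (hinj : InjOn (fun x => x + u x • e) Ω) (hw : WeakGrad μ Ω u G)
    (hu₀ : StronglyMeasurable (Ω.indicator u)) (hG : StronglyMeasurable G)
    (hGloc : LocallyIntegrableOn G Ω μ) {a : ℝ≥0∞}
    (hG₁ : ∀ (ν : Measure E) [IsProbabilityMeasure ν], (∀ᵐ z ∂ν, ‖z‖ ≤ 1) →
      ∀ r : E → ℝ, IsRadius Ω γ r →
        ∫⁻ x in Ω, (∫⁻ z, ‖G (x + r x • z) - G x‖ₑ ∂ν) ^ p ∂μ ≤ a)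
    (hu₁ : ∀ r : E → ℝ, IsRadius Ω γ r → ∫⁻ x in Ω, (∫⁻ z,
      ‖Ω.indicator u (x + r x • z) - Ω.indicator u x‖ₑ ∂segMeasure e) ^ p ∂μ ≤ a)
    (hGγ : ENNReal.ofReal γ ^ p * ∫⁻ x, ‖G x‖ₑ ^ p ∂μ ≤ a) {ε₀ : ℝ} (hε₀ : 0 < ε₀)
    (hε₀' : ENNReal.ofReal ε₀ ^ p * μ Ω ≤ a) :
    ∃ v : E → ℝ, ContDiffOn ℝ ∞ v Ω ∧
      BijOn (fun x => x + v x • e) Ω ((fun x => x + u x • e) '' Ω) ∧
      IsOpen ((fun x => x + u x • e) '' Ω) ∧
      ContDiffOn ℝ ∞ (Function.invFunOn (fun x => x + v x • e) Ω)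
        ((fun x => x + u x • e) '' Ω) ∧
      ∫⁻ x in Ω, ‖v x - u x‖ₑ ^ p ∂μ ≤ 2 ^ (p - 1) * (a + a) ∧
      ∫⁻ x in Ω, ‖fderiv ℝ v x - G x‖ₑ ^ p ∂μ ≤ 2 ^ (p - 1) * 2 ^ (p - 1) * (2 ^ p *
        (2 * (2 ^ (p - 1) * 2 ^ (p - 1) * (2 ^ p * (2 * 0) + 2 ^ p * a + a))) +
          2 ^ p * a + a) := by
  have hΩm := hΩ.measurableSet
  obtain ⟨δ, hδ⟩ := exists_radius hΩ hbd hγ0
  obtain ⟨r, hr, -, hwu, hmargin⟩ :=
    exists_mollify_fine (μ := μ) hδ hγ0 hγh he hΩ hbd hu hinj hε₀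
  set w := shiftAvg (mollMeasure μ) r u
  have hul : LocallyIntegrableOn u Ω μ := hu.locallyIntegrableOn hΩm
  have hwsm : ContDiffOn ℝ ∞ w Ω := shiftAvg_moll_contDiffOn μ hr hul
  have hvsm := shiftAvg_seg_contDiffOn hδ he hΩ hwsm
  have hkey := fun x hx => window_key hδ (by linarith) he hΩ hu hinj hwsm (x := x) hx
    (hmargin x hx)
  obtain ⟨hbij, hinv, hopen⟩ := fibre_bijOn hΩ hbd hδ he hu hinj hvsm
    (fun x hx => (hkey x hx).1) fun x hx => by
      have := (hkey x hx).2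
      simpa [windowFun] using this
  have hD1 : ∫⁻ x in Ω, ‖fderiv ℝ w x - G x‖ₑ ^ p ∂μ ≤
      2 ^ (p - 1) * 2 ^ (p - 1) * (2 ^ p * (2 * 0) + 2 ^ p * a + a) :=
    lintegral_deriv_step (mollMeasure_ball μ) hp hγh hr hΩm hG hG
      (fun x hx => shiftAvg_moll_fderiv μ hr hul hGloc hΩ hw hx)
      (hG₁ _ (mollMeasure_ball μ) r hr) hGγ
      (by
        have h0 : ∀ x, ‖G x - G x‖ₑ = 0 := fun x => by
          rw [sub_self, ← ofReal_norm, norm_zero, ENNReal.ofReal_zero]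
        simp only [h0, ENNReal.zero_rpow_of_pos (by linarith : 0 < p), lintegral_zero, le_refl])
  exact ⟨_, hvsm, hbij, hopen, hinv,
    lintegral_value_step hp he hδ hΩm hu₀ hwsm.continuousOn hwu hε₀' (hu₁ δ hδ),
    lintegral_deriv_step (segMeasure_ball he) hp hγh hδ hΩm hG
      (measurable_fderiv ℝ w).stronglyMeasurable
      (fun x hx b => (shiftAvg_fderiv_of_smooth (segMeasure_ball he) hδ hΩ hwsm hvsm hx b).2)
      (hG₁ _ (segMeasure_ball he) δ hδ) hGγ hD1⟩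

/-- The approximation in general. -/
theorem approx {p : ℝ} (hp : 1 ≤ p) (hΩ : IsOpen Ω) (hbd : Bornology.IsBounded Ω) (he : ‖e‖ = 1)
    {u : E → ℝ} {G : E → E →L[ℝ] ℝ} (hu : ContinuousOn u Ω)
    (hinj : InjOn (fun x => x + u x • e) Ω) (hw : WeakGrad μ Ω u G)
    (huP : MemLp u (ENNReal.ofReal p) (μ.restrict Ω))
    (hGP : MemLp G (ENNReal.ofReal p) (μ.restrict Ω)) {ε : ℝ≥0∞} (hε : ε ≠ 0) :
    ∃ v : E → ℝ, ContDiffOn ℝ ∞ v Ω ∧
      BijOn (fun x => x + v x • e) Ω ((fun x => x + u x • e) '' Ω) ∧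
      IsOpen ((fun x => x + u x • e) '' Ω) ∧
      ContDiffOn ℝ ∞ (Function.invFunOn (fun x => x + v x • e) Ω)
        ((fun x => x + u x • e) '' Ω) ∧
      MemLp v (ENNReal.ofReal p) (μ.restrict Ω) ∧
      MemLp (fderiv ℝ v) (ENNReal.ofReal p) (μ.restrict Ω) ∧
      (∫⁻ x in Ω, ‖v x - u x‖ₑ ^ p ∂μ) ≤ ε ∧
      (∫⁻ x in Ω, ‖fderiv ℝ v x - G x‖ₑ ^ p ∂μ) ≤ ε := by
  classical
  have hp0 : (0 : ℝ) < p := by linarith
  have hΩm := hΩ.measurableSet
  have hμΩ : μ Ω ≠ ⊤ := hbd.measure_lt_top.ne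
  -- global measurable representatives
  obtain ⟨G₀, hG₀m, hGG₀, hG₀P⟩ := exists_global_rep (W := E →L[ℝ] ℝ) hΩm hGP
  have hG₀loc : LocallyIntegrableOn G₀ Ω μ :=
    (hG₀P.locallyIntegrable (by rwa [ENNReal.one_le_ofReal])).locallyIntegrableOn Ω
  have hu₀m : StronglyMeasurable (Ω.indicator u) := by
    have h := (hu.measurable_piecewise (g := fun _ => (0 : ℝ)) continuousOn_const
      hΩm).stronglyMeasurable
    exact h
  have hu₀P : MemLp (Ω.indicator u) (ENNReal.ofReal p) μ :=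
    (memLp_indicator_iff_restrict hΩm).2 huP
  -- constants
  set C : ℝ≥0∞ := 2 ^ (p - 1)
  have hC : C ≠ ⊤ := ENNReal.rpow_ne_top_of_nonneg (by linarith) (by simp)
  have h2p : (2 : ℝ≥0∞) ^ p ≠ ⊤ := ENNReal.rpow_ne_top_of_nonneg hp0.le (by simp)
  set K : ℝ≥0∞ := C * C * (2 ^ p * (2 * (C * C * (2 ^ p * (2 * 0) + 2 ^ p + 1))) + 2 ^ p + 1) +
    C * (1 + 1)
  have hK : K ≠ ⊤ := by
    simp only [K]
    finiteness
  set ε' := min ε 1
  have hε' : ε' ≠ 0 := (lt_min (pos_iff_ne_zero.2 hε) one_pos).ne'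
  have hε'top : ε' ≠ ⊤ := ne_top_of_le_ne_top ENNReal.one_ne_top (min_le_right _ _)
  set a := ε' / K
  have ha : a ≠ 0 := (ENNReal.div_pos hε' hK).ne'
  -- the size of the windows
  obtain ⟨g₁, hg₁, hG₁⟩ := exists_shift_sub_small μ hp G₀ hG₀m hG₀P Ω hμΩ a ha
  obtain ⟨g₂, hg₂, hu₁⟩ :=
    exists_shift_sub_small μ hp (Ω.indicator u) hu₀m hu₀P Ω hμΩ a ha
  obtain ⟨γ₀, hγM, hγ₀ : (0 : ℝ) < γ₀⟩ := ((eventually_rpow_mul_le hp0
    (lintegral_rpow_ne_top hp0 hG₀P) ha).and self_mem_nhdsWithin).exists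
  obtain ⟨ε₀, hε₀M, hε₀ : (0 : ℝ) < ε₀⟩ :=
    ((eventually_rpow_mul_le hp0 hμΩ ha).and self_mem_nhdsWithin).exists
  set γ := min (min g₁ g₂) (min γ₀ (1 / 2))
  have hsize : ∀ {r : E → ℝ}, IsRadius Ω γ r →
      (∀ g, γ ≤ g → (∀ x, |r x| ≤ g) ∧ ∀ x, ‖fderiv ℝ r x‖ ≤ g) := fun h g hg =>
    ⟨fun x => by rw [abs_of_nonneg (h.nonneg x)]; exact (h.le x).trans hg,
      fun x => (h.deriv x).trans hg⟩
  have hγ1 : γ ≤ g₁ := (min_le_left _ _).trans (min_le_left _ _)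
  have hγ2 : γ ≤ g₂ := (min_le_left _ _).trans (min_le_right _ _)
  have hγ3 : γ ≤ γ₀ := (min_le_right _ _).trans (min_le_left _ _)
  obtain ⟨v, hvsm, hbij, hopen, hinv, hV, hD⟩ := approx_of_size (μ := μ) (γ := γ) hp
    (lt_min (lt_min hg₁ hg₂) (lt_min hγ₀ (by norm_num)))
    ((min_le_right _ _).trans (min_le_right _ _)) hΩ hbd he hu hinj
    (hw.congr_ae hΩm hGG₀) hu₀m hG₀m hG₀loc
    (fun ν _ hν r hr => hG₁ ν hν r (hr.smooth.differentiable (by simp))
      (hsize hr g₁ hγ1).1 (hsize hr g₁ hγ1).2)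
    (fun r hr => hu₁ _ (segMeasure_ball he) r (hr.smooth.differentiable (by simp))
      (hsize hr g₂ hγ2).1 (hsize hr g₂ hγ2).2)
    ((mul_le_mul_left (ENNReal.rpow_le_rpow (ENNReal.ofReal_le_ofReal hγ3) hp0.le) _).trans hγM)
    hε₀ hε₀M
  have hKa : K * a ≤ ε' := ENNReal.mul_div_le
  have hV' : ∫⁻ x in Ω, ‖v x - u x‖ₑ ^ p ∂μ ≤ ε' := by
    refine (hV.trans ?_).trans hKa
    calc C * (a + a) = C * (1 + 1) * a := by ring
      _ ≤ K * a := by gcongr; exact le_add_self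
  have hD' : ∫⁻ x in Ω, ‖fderiv ℝ v x - G x‖ₑ ^ p ∂μ ≤ ε' := by
    refine le_of_eq_of_le (lintegral_congr_ae ?_) ((hD.trans ?_).trans hKa)
    · filter_upwards [hGG₀] with x hx
      rw [hx]
    · calc C * C * (2 ^ p * (2 * (C * C * (2 ^ p * (2 * 0) + 2 ^ p * a + a))) + 2 ^ p * a + a) =
            C * C * (2 ^ p * (2 * (C * C * (2 ^ p * (2 * 0) + 2 ^ p + 1))) + 2 ^ p + 1) * a := by
              ring
        _ ≤ K * a := by gcongr; exact le_self_add
  exact ⟨v, hvsm, hbij, hopen, hinv,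
    memLp_of_close hp0 hε'top (hvsm.continuousOn.aestronglyMeasurable hΩm) huP hV',
    memLp_of_close hp0 hε'top
      ((hvsm.continuousOn_fderiv_of_isOpen hΩ (by simp)).aestronglyMeasurable hΩm) hGP hD',
    hV'.trans (min_le_left _ _), hD'.trans (min_le_left _ _)⟩

theorem core : CoreSpec :=
  fun _p hp _Ω hΩ hbd _e he _u _G hu hinj hw huP hGP _ε hε =>
    approx hp hΩ hbd he hu hinj hw huP hGP hε

end

end Vale.Agent.P073
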