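import Vale.Agent.P073.Radius

/-!
Averages with a variable radius: smoothness and the formula for the derivative, for the mollifier
applied to a weakly differentiable function and for the segment average of a smooth function.
-/

open Set Metric Filter MeasureTheory Module
open scoped ContDiff Topology ENNReal

namespace Vale.Agent.P073

noncomputable section

variable {E : Type*} [NormedAddCommGroup E] [NormedSpace ℝ E] [MeasurableSpace E]

/-- The average of `H` over the window of radius `r x` at `x`. -/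
def shiftAvg {F : Type*} [NormedAddCommGroup F] [NormedSpace ℝ F] (ν : Measure E) (r : E → ℝ)
    (H : E → F) (x : E) : F :=
  ∫ z, H (x + r x • z) ∂ν

/-- `G` is a weak gradient of `u` on `Ω`. -/
def WeakGrad (μ : Measure E) (Ω : Set E) (u : E → ℝ) (G : E → E →L[ℝ] ℝ) : Prop :=
  ∀ φ : E → ℝ, ContDiff ℝ ∞ φ → HasCompactSupport φ → tsupport φ ⊆ Ω →
    ∀ a : E, ∫ x, u x * fderiv ℝ φ x a ∂μ = -∫ x, G x a * φ x ∂μ

variable [FiniteDimensional ℝ E] [BorelSpace E]

/-- The fixed bump. -/
def bump : ContDiffBump (0 : E) := ⟨1 / 2, 1, by norm_num, by norm_num⟩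

variable (μ : Measure E) [μ.IsAddHaarMeasure]

/-- The mollifier. -/
def moll : E → ℝ := (bump (E := E)).normed μ

/-- The mollifier as a probability measure. -/
def mollMeasure : Measure E := μ.withDensity fun z => ENNReal.ofReal (moll μ z)

lemma moll_nonneg (z : E) : 0 ≤ moll μ z := (bump (E := E)).nonneg_normed z

lemma moll_smooth : ContDiff ℝ ∞ (moll μ) := (bump (E := E)).contDiff_normed

lemma moll_eq_zero {z : E} (hz : 1 ≤ ‖z‖) : moll μ z = 0 := by
  have := (bump (E := E)).support_normed_eq (μ := μ)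
  refine Function.notMem_support.1 ?_
  show z ∉ Function.support ((bump (E := E)).normed μ)
  rw [this]
  simpa [bump] using hz

instance : IsProbabilityMeasure (mollMeasure μ) := by
  refine ⟨?_⟩
  rw [mollMeasure, withDensity_apply _ MeasurableSet.univ, setLIntegral_univ,
    moll, ← ofReal_integral_eq_lintegral_ofReal (bump (E := E)).integrable_normed
      (Eventually.of_forall (moll_nonneg μ))]
  simp [(bump (E := E)).integral_normed]

lemma mollMeasure_ball : ∀ᵐ z ∂mollMeasure μ, ‖z‖ ≤ 1 := by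
  rw [mollMeasure, ae_withDensity_iff ((moll_smooth μ).continuous.measurable.ennreal_ofReal)]
  refine Eventually.of_forall fun z hz => ?_
  by_contra h
  exact hz (by simp [moll_eq_zero μ (not_le.1 h).le])

/-- The mollifier rescaled to the ball of radius `t` at `x`. -/
def kernel (t : ℝ) (x y : E) : ℝ := t⁻¹ ^ finrank ℝ E * moll μ (t⁻¹ • (y - x))

lemma integral_mollMeasure {F : Type*} [NormedAddCommGroup F] [NormedSpace ℝ F] (H : E → F)
    {t : ℝ} (ht : 0 < t) (x : E) :
    ∫ z, H (x + t • z) ∂mollMeasure μ = ∫ y, kernel μ t x y • H y ∂μ := by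
  have h1 : ∫ z, H (x + t • z) ∂mollMeasure μ = ∫ z, moll μ z • H (x + t • z) ∂μ := by
    rw [mollMeasure, integral_withDensity_eq_integral_toReal_smul
      ((moll_smooth μ).continuous.measurable.ennreal_ofReal)
      (Eventually.of_forall fun _ => ENNReal.ofReal_lt_top)]
    simp only [ENNReal.toReal_ofReal (moll_nonneg μ _)]
  have h2 : ∫ z, moll μ z • H (x + t • z) ∂μ =
      ∫ z, (fun w => moll μ (t⁻¹ • w) • H (x + w)) (t • z) ∂μ := by
    simp [smul_smul, inv_mul_cancel₀ ht.ne']
  rw [h1, h2, Measure.integral_comp_smul_of_nonneg μ (fun w => moll μ (t⁻¹ • w) • H (x + w)) t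
    (hR := ht.le), ← integral_smul,
    ← integral_add_left_eq_self (fun y => kernel μ t x y • H y) x]
  simp [kernel, smul_smul, inv_pow]

lemma contDiff_kernel (t : ℝ) (x : E) : ContDiff ℝ ∞ (kernel μ t x) :=
  contDiff_const.mul ((moll_smooth μ).comp (contDiff_const.smul (contDiff_id.sub contDiff_const)))

lemma kernel_eq_zero {t : ℝ} (ht : 0 < t) {x y : E} (h : t ≤ ‖y - x‖) : kernel μ t x y = 0 := by
  rw [kernel, moll_eq_zero, mul_zero]
  rw [norm_smul, Real.norm_eq_abs, abs_of_pos (inv_pos.2 ht), inv_mul_eq_div, one_le_div ht]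
  exact h

lemma tsupport_kernel {t : ℝ} (ht : 0 < t) (x : E) :
    tsupport (kernel μ t x) ⊆ closedBall x t := by
  refine closure_minimal (fun y hy => ?_) isClosed_closedBall
  by_contra h
  rw [mem_closedBall, dist_eq_norm, not_le] at h
  exact hy (kernel_eq_zero μ ht h.le)

variable {Ω : Set E} {γ : ℝ} {r : E → ℝ}

lemma IsRadius.closedBall_subset (hr : IsRadius Ω γ r) {x : E} (hx : x ∈ Ω) {c : ℝ} (hc : c ≤ 2) :
    closedBall x (c * r x) ⊆ Ω := by
  intro y hy
  have hrx := hr.pos x hx
  have := hr.inside x hx ((r x)⁻¹ • (y - x)) ?_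
  · rwa [smul_smul, mul_inv_cancel₀ hrx.ne', one_smul, add_sub_cancel] at this
  · rw [mem_closedBall, dist_eq_norm] at hy
    rw [norm_smul, Real.norm_eq_abs, abs_of_pos (inv_pos.2 hrx), inv_mul_eq_div,
      div_le_iff₀ hrx]
    exact hy.trans (mul_le_mul_of_nonneg_right hc hrx.le)

/-- Functions integrable near a compact set times continuous functions supported in it. -/
lemma integrable_mul_supported {K : Set E} (hK : IsCompact K) {f g : E → ℝ}
    (hf : IntegrableOn f K μ) (hg : Continuous g) (hg0 : ∀ y ∉ K, g y = 0) :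
    Integrable (fun y => f y * g y) μ := by
  have h := hf.mul_continuousOn hg.continuousOn hK
  rw [← integrable_indicator_iff hK.measurableSet] at h
  refine h.congr (Eventually.of_forall fun y => ?_)
  by_cases hy : y ∈ K
  · simp [hy]
  · simp [hy, hg0 y hy]

theorem shiftAvg_moll_contDiffOn (hr : IsRadius Ω γ r) {u : E → ℝ}
    (hu : LocallyIntegrableOn u Ω μ) :
    ContDiffOn ℝ ∞ (shiftAvg (mollMeasure μ) r u) Ω := by
  intro x₀ hx₀
  have hr0 := hr.pos x₀ hx₀
  set K := closedBall x₀ (3 / 2 * r x₀)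
  have hKΩ : K ⊆ Ω := hr.closedBall_subset hx₀ (by norm_num)
  have hK : IsCompact K := isCompact_closedBall _ _
  set s := ball x₀ (r x₀ / 4) ∩ r ⁻¹' Ioo (r x₀ / 2) (5 / 4 * r x₀)
  have hs : IsOpen s := isOpen_ball.inter (isOpen_Ioo.preimage hr.smooth.continuous)
  have hxs : x₀ ∈ s := ⟨mem_ball_self (by positivity), by constructor <;> linarith⟩
  set g : E → E → ℝ := fun x z => (r x)⁻¹ ^ finrank ℝ E * moll μ ((r x)⁻¹ • (-z))
  have hrs : ∀ x ∈ s, 0 < r x := fun x hx => by linarith [hx.2.1]
  have hgs : ∀ x z, x ∈ s → z ∉ closedBall (0 : E) (2 * r x₀) → g x z = 0 := by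
    intro x z hx hz
    have := hrs x hx
    simp only [g]
    rw [moll_eq_zero, mul_zero]
    rw [mem_closedBall, dist_zero_right, not_le] at hz
    rw [norm_smul, norm_neg, Real.norm_eq_abs, abs_of_pos (inv_pos.2 this), inv_mul_eq_div,
      one_le_div this]
    linarith [hx.2.2]
  have hgd : ContDiffOn ℝ ∞ ↿g (s ×ˢ univ) := by
    have hinv : ContDiffOn ℝ ∞ (fun q : E × E => (r q.1)⁻¹) (s ×ˢ univ) :=
      (hr.smooth.comp contDiff_fst).contDiffOn.inv fun q hq => (hrs q.1 hq.1).ne'
    exact (hinv.pow _).mul ((moll_smooth μ).comp_contDiffOn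
      (hinv.smul contDiff_snd.neg.contDiffOn))
  have hf : Integrable (K.indicator u) μ :=
    (integrable_indicator_iff hK.measurableSet).2 (hu.integrableOn_compact_subset hKΩ hK)
  have hconv := contDiffOn_convolution_right_with_param_comp (ContinuousLinearMap.mul ℝ ℝ)
    (μ := μ) (v := id) contDiffOn_id hs (isCompact_closedBall _ _) hgs hf.locallyIntegrable hgd
  refine ((hconv.contDiffAt (hs.mem_nhds hxs)).congr_of_eventuallyEq ?_).contDiffWithinAt
  filter_upwards [hs.mem_nhds hxs] with x hx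
  rw [shiftAvg, integral_mollMeasure μ u (hrs x hx) x, MeasureTheory.convolution_def]
  refine integral_congr_ae (Eventually.of_forall fun y => ?_)
  simp only [g, id, ContinuousLinearMap.mul_apply', neg_sub, smul_eq_mul]
  by_cases hy : y ∈ K
  · rw [indicator_of_mem hy, kernel]; ring
  · rw [indicator_of_notMem hy, zero_mul, kernel_eq_zero μ (hrs x hx), zero_mul]
    rw [mem_closedBall, dist_eq_norm, not_le] at hy
    have h1 : ‖x - x₀‖ < r x₀ / 4 := by simpa [dist_eq_norm] using hx.1
    linarith [hx.2.2, norm_sub_le_norm_sub_add_norm_sub y x x₀]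

theorem shiftAvg_moll_fderiv (hr : IsRadius Ω γ r) {u : E → ℝ} {G : E → E →L[ℝ] ℝ}
    (hu : LocallyIntegrableOn u Ω μ) (hG : LocallyIntegrableOn G Ω μ) (hΩ : IsOpen Ω)
    (hw : WeakGrad μ Ω u G) {x : E} (hx : x ∈ Ω) (a : E) :
    fderiv ℝ (shiftAvg (mollMeasure μ) r u) x a =
      ∫ z, G (x + r x • z) (a + fderiv ℝ r x a • z) ∂mollMeasure μ := by
  set n := finrank ℝ E
  have hr0 := hr.pos x hx
  set K := closedBall x (3 / 2 * r x)
  have hKΩ : K ⊆ Ω := hr.closedBall_subset hx (by norm_num)
  have hK : IsCompact K := isCompact_closedBall _ _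
  -- the kernel along the line, and its derivative
  set U : Set (E × E) := {q | 0 < r q.1}
  have hU : IsOpen U := isOpen_lt continuous_const (hr.smooth.continuous.comp continuous_fst)
  set k2 : E × E → ℝ := fun q => kernel μ (r q.1) q.1 q.2
  have hk2 : ContDiffOn ℝ ∞ k2 U := by
    have hinv : ContDiffOn ℝ ∞ (fun q : E × E => (r q.1)⁻¹) U :=
      (hr.smooth.comp contDiff_fst).contDiffOn.inv fun q (hq : 0 < r q.1) => hq.ne'
    exact (hinv.pow _).mul ((moll_smooth μ).comp_contDiffOn
      (hinv.smul (contDiff_snd.sub contDiff_fst).contDiffOn))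
  set s₀ := min 1 (r x / 4) / (‖a‖ + 1)
  have hnbhd : ∀ᶠ s in 𝓝 (0:ℝ), 0 < r (x + s • a) ∧ r (x + s • a) < 5 / 4 * r x ∧
      ‖s • a‖ < r x / 4 := by
    have hc : Continuous fun s : ℝ => x + s • a :=
      continuous_const.add (continuous_id.smul continuous_const)
    have h0 : Tendsto (fun s : ℝ => r (x + s • a)) (𝓝 0) (𝓝 (r x)) := by
      simpa [Function.comp_def] using (hr.smooth.continuous.comp hc).tendsto 0
    have h1 : Tendsto (fun s : ℝ => ‖s • a‖) (𝓝 0) (𝓝 0) := by
      simpa using ((continuous_id.smul continuous_const).norm (f := fun s : ℝ => s • a)).tendsto 0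
    filter_upwards [h0.eventually (lt_mem_nhds hr0),
      h0.eventually (gt_mem_nhds (show r x < 5 / 4 * r x by linarith)),
      h1.eventually (gt_mem_nhds (show (0:ℝ) < r x / 4 by linarith))] with s u1 u2 u3
    exact ⟨u1, u2, u3⟩
  obtain ⟨η, hη, hηs⟩ := Metric.nhds_basis_closedBall.eventually_iff.1 hnbhd
  set k' : ℝ → E → ℝ := fun s y => fderiv ℝ k2 (x + s • a, y) (a, 0)
  have hmem : ∀ s ∈ closedBall (0:ℝ) η, ∀ y : E, (x + s • a, y) ∈ U := fun s hs y => (hηs hs).1
  have hcd : ContinuousOn (Function.uncurry k') (closedBall (0:ℝ) η ×ˢ univ) := by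
    have h1 : ContinuousOn (fderiv ℝ k2) U := hk2.continuousOn_fderiv_of_isOpen hU (by simp)
    refine ContinuousOn.clm_apply (h1.comp (f := fun q : ℝ × E => (x + q.1 • a, q.2)) ?_ ?_)
      continuousOn_const
    · exact Continuous.continuousOn (by fun_prop)
    · exact fun q hq => hmem q.1 hq.1 q.2
  obtain ⟨M, hM⟩ := ((isCompact_closedBall (0:ℝ) η).prod hK).exists_bound_of_continuousOn
    (hcd.mono (prod_mono_right (subset_univ _)))
  have hd : ∀ s ∈ closedBall (0:ℝ) η, ∀ y : E,
      HasDerivAt (fun s => k2 (x + s • a, y)) (k' s y) s := by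
    intro s hs y
    have h1 : HasDerivAt (fun s : ℝ => (x + s • a, y)) (a, (0:E)) s := by
      simpa using (((hasDerivAt_id s).smul_const a).const_add x).prodMk (hasDerivAt_const s y)
    exact ((hk2.contDiffAt (hU.mem_nhds (hmem s hs y))).differentiableAt (by simp)).hasFDerivAt
      |>.comp_hasDerivAt s h1
  set uK := K.indicator u
  have huK : Integrable uK μ :=
    (integrable_indicator_iff hK.measurableSet).2 (hu.integrableOn_compact_subset hKΩ hK)
  have hzero : ∀ s ∈ closedBall (0:ℝ) η, ∀ y ∉ K, k2 (x + s • a, y) = 0 := by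
    intro s hs y hy
    obtain ⟨h1, h2, h3⟩ := hηs hs
    refine kernel_eq_zero μ h1 ?_
    rw [mem_closedBall, dist_eq_norm, not_le] at hy
    have := norm_add_le (y - (x + s • a)) (s • a)
    rw [show y - (x + s • a) + s • a = y - x by abel] at this
    linarith
  have hkcont : ∀ s ∈ closedBall (0:ℝ) η, Continuous fun y => k2 (x + s • a, y) :=
    fun s _ => (contDiff_kernel μ (r (x + s • a)) (x + s • a)).continuous
  have hk'cont : Continuous (k' 0) := by
    refine continuous_iff_continuousAt.2 fun y => ?_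
    have h := hcd.comp (f := fun y : E => ((0:ℝ), y)) (Continuous.prodMk_right (0:ℝ)).continuousOn
      (s := univ) fun z _ => ⟨mem_closedBall_self hη.le, mem_univ z⟩
    exact (continuousOn_univ.1 h).continuousAt
  have hderiv := (hasDerivAt_integral_of_dominated_loc_of_deriv_le
    (F := fun s y => uK y * k2 (x + s • a, y)) (F' := fun s y => uK y * k' s y)
    (bound := fun y => ‖uK y‖ * M) (μ := μ) (closedBall_mem_nhds (0:ℝ) hη)
    (Eventually.mono (closedBall_mem_nhds (0:ℝ) hη) fun s hs =>
      huK.aestronglyMeasurable.mul (hkcont s hs).aestronglyMeasurable)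
    (integrable_mul_supported μ hK huK.integrableOn (hkcont 0 (mem_closedBall_self hη.le))
      (hzero 0 (mem_closedBall_self hη.le)))
    (huK.aestronglyMeasurable.mul hk'cont.aestronglyMeasurable)
    (Eventually.of_forall fun y s hs => ?_) (huK.norm.mul_const M)
    (Eventually.of_forall fun y s hs => (hd s hs y).const_mul (uK y))).2
  swap
  · by_cases hy : y ∈ K
    · rw [norm_mul]
      exact mul_le_mul_of_nonneg_left (hM (s, y) ⟨hs, hy⟩) (norm_nonneg _)
    · simp [uK, indicator_of_notMem hy]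
  have hleft : (fun s : ℝ => shiftAvg (mollMeasure μ) r u (x + s • a)) =ᶠ[𝓝 0]
      fun s => ∫ y, uK y * k2 (x + s • a, y) ∂μ := by
    filter_upwards [closedBall_mem_nhds (0:ℝ) hη] with s hs
    rw [shiftAvg, integral_mollMeasure μ u (hηs hs).1]
    refine integral_congr_ae (Eventually.of_forall fun y => ?_)
    by_cases hy : y ∈ K
    · simp [uK, hy, k2, mul_comm]
    · simp only [k2, uK, indicator_of_notMem hy, zero_mul, smul_eq_mul]
      rw [show kernel μ (r (x + s • a)) (x + s • a) y = 0 from hzero s hs y hy, zero_mul]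
  have hline : HasDerivAt (fun s : ℝ => shiftAvg (mollMeasure μ) r u (x + s • a))
      (fderiv ℝ (shiftAvg (mollMeasure μ) r u) x a) 0 := by
    have h := ((shiftAvg_moll_contDiffOn μ hr hu).contDiffAt (hΩ.mem_nhds hx)).differentiableAt
      (by simp : (∞ : WithTop ℕ∞) ≠ 0)
    refine HasFDerivAt.comp_hasDerivAt (l := shiftAvg (mollMeasure μ) r u)
      (f := fun s : ℝ => x + s • a) 0 ?_ ?_
    · simpa using h.hasFDerivAt
    · simpa using ((hasDerivAt_id (0:ℝ)).smul_const a).const_add x
  rw [hline.unique (hderiv.congr_of_eventuallyEq hleft)]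
  -- the derivative of the kernel is a divergence
  set ρ := moll μ
  set t := r x
  set d := fderiv ℝ r x a
  set q := -(t⁻¹ * d)
  set Φ := kernel μ t x
  have hΦ : ContDiff ℝ ∞ Φ := contDiff_kernel μ t x
  have hΦd : ∀ y b, fderiv ℝ Φ y b = t⁻¹ ^ n * fderiv ℝ ρ (t⁻¹ • (y - x)) (t⁻¹ • b) := by
    intro y b
    have h1 : HasFDerivAt (fun y => t⁻¹ • (y - x)) (t⁻¹ • ContinuousLinearMap.id ℝ E) y :=
      ((hasFDerivAt_id y).sub_const x).const_smul t⁻¹
    have h2 := (((moll_smooth μ).differentiable (by simp)).differentiableAt.hasFDerivAt.comp y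
      h1).const_mul (t⁻¹ ^ n)
    rw [show fderiv ℝ Φ y = _ from h2.fderiv]
    simp [ρ]
  set B := finBasis ℝ E
  set π : Fin n → E →L[ℝ] ℝ := fun j => LinearMap.toContinuousLinearMap (B.coord j)
  have hπ : ∀ v : E, ∑ j, π j v • B j = v := fun v => by simpa [π] using B.sum_repr v
  set ψ : Fin n → E → ℝ := fun j y => π j (y - x) * Φ y
  have hψ : ∀ j, ContDiff ℝ ∞ (ψ j) := fun j =>
    ((π j).contDiff.comp (contDiff_id.sub contDiff_const)).mul hΦ
  have hψd : ∀ y, ∑ j, fderiv ℝ (ψ j) y (B j) = n * Φ y + fderiv ℝ Φ y (y - x) := by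
    intro y
    have h : ∀ j, fderiv ℝ (ψ j) y (B j) =
        π j (y - x) * fderiv ℝ Φ y (B j) + Φ y := by
      intro j
      have h1 : HasFDerivAt (fun y => π j (y - x)) (π j) y :=
        (π j).hasFDerivAt.comp y ((hasFDerivAt_id y).sub_const x)
      rw [show fderiv ℝ (ψ j) y = _ from
        (h1.mul ((hΦ.differentiable (by simp)).differentiableAt.hasFDerivAt)).fderiv]
      simp [π]
    rw [Finset.sum_congr rfl fun j _ => h j, Finset.sum_add_distrib]
    conv_rhs => rw [← hπ (y - x)]
    simp only [map_sum, map_smul, smul_eq_mul, Finset.sum_const, Finset.card_univ,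
      Fintype.card_fin, nsmul_eq_mul, map_sub]
    ring
  have hk'0 : ∀ y, k' 0 y = -fderiv ℝ Φ y a + q * ∑ j, fderiv ℝ (ψ j) y (B j) := by
    intro y
    have hline' : HasDerivAt (fun s : ℝ => x + s • a) a 0 := by
      simpa using ((hasDerivAt_id (0:ℝ)).smul_const a).const_add x
    have hr' : HasDerivAt (fun s : ℝ => (r (x + s • a))⁻¹) (-d / t ^ 2) 0 := by
      have h1 : HasDerivAt (fun s : ℝ => r (x + s • a)) d 0 := by
        refine HasFDerivAt.comp_hasDerivAt (f := fun s : ℝ => x + s • a) 0 ?_ hline'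
        simpa [d] using ((hr.smooth.differentiable (by simp)).differentiableAt).hasFDerivAt
      simpa [t] using h1.fun_inv (by simpa using hr0.ne')
    have hin : HasDerivAt (fun s : ℝ => (r (x + s • a))⁻¹ • (y - (x + s • a)))
        (t⁻¹ • (-a) + (-d / t ^ 2) • (y - x)) 0 := by
      simpa [t] using hr'.fun_smul (hline'.const_sub y)
    have hρ : HasDerivAt (fun s : ℝ => ρ ((r (x + s • a))⁻¹ • (y - (x + s • a))))
        (fderiv ℝ ρ (t⁻¹ • (y - x)) (t⁻¹ • (-a) + (-d / t ^ 2) • (y - x))) 0 := by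
      refine HasFDerivAt.comp_hasDerivAt
        (f := fun s : ℝ => (r (x + s • a))⁻¹ • (y - (x + s • a))) 0 ?_ hin
      simp only [zero_smul, add_zero]
      exact (((moll_smooth μ).differentiable (by simp)).differentiableAt).hasFDerivAt
    rw [(hd 0 (mem_closedBall_self hη.le) y).unique ((hr'.pow n).mul hρ), hψd, hΦd, hΦd]
    simp only [map_add, map_smul, map_neg, smul_eq_mul, q, Φ, kernel, zero_smul, add_zero,
      Pi.pow_apply, t, ρ]
    have hne : r x ≠ 0 := hr0.ne'
    rcases Nat.eq_zero_or_pos n with hn | hn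
    · simp only [hn, show finrank ℝ E = n from rfl]; field_simp; ring
    · have hp : (r x)⁻¹ ^ n = (r x)⁻¹ ^ (n - 1) * (r x)⁻¹ := by
        rw [← pow_succ, Nat.sub_add_cancel hn]
      rw [show finrank ℝ E = n from rfl, hp]
      field_simp
      ring
  -- the weak gradient
  have hcs : ∀ g : E → ℝ, (∀ y, Φ y = 0 → g y = 0) → ∀ y ∉ closedBall x t, g y = 0 := by
    intro g hg y hy
    exact hg y (image_eq_zero_of_notMem_tsupport fun h => hy (tsupport_kernel μ hr0 x h))
  have htest : ∀ g : E → ℝ, ContDiff ℝ ∞ g → (∀ y, Φ y = 0 → g y = 0) → ∀ b : E,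
      Integrable (fun y => uK y * fderiv ℝ g y b) μ ∧
      ∫ y, uK y * fderiv ℝ g y b ∂μ = -∫ y, G y b * g y ∂μ := by
    intro g hg hg0 b
    have hsupp : tsupport g ⊆ closedBall x t :=
      closure_minimal (fun y hy => by
        by_contra h
        exact hy (hcs g hg0 y h)) isClosed_closedBall
    have hgK : tsupport g ⊆ K := hsupp.trans (closedBall_subset_closedBall (by linarith))
    have hout : ∀ y ∉ K, fderiv ℝ g y b = 0 := fun y hy => by
      rw [fderiv_of_notMem_tsupport ℝ fun h => hy (hgK h)]; rfl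
    refine ⟨integrable_mul_supported μ hK huK.integrableOn
      ((hg.continuous_fderiv (by simp)).clm_apply continuous_const) hout, ?_⟩
    rw [← hw g hg (hK.of_isClosed_subset (isClosed_tsupport _) hgK) (hgK.trans hKΩ) b]
    refine integral_congr_ae (Eventually.of_forall fun y => ?_)
    by_cases hy : y ∈ K
    · simp [uK, hy]
    · simp [hout y hy]
  obtain ⟨hia, hea⟩ := htest Φ hΦ (fun _ h => h) a
  have hj := fun j => htest (ψ j) (hψ j) (fun y h => by simp [ψ, h]) (B j)
  have hGK : IntegrableOn G K μ := hG.integrableOn_compact_subset hKΩ hK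
  have hGb : ∀ (b : E) (g : E → ℝ), Continuous g → (∀ y, Φ y = 0 → g y = 0) →
      Integrable (fun y => G y b * g y) μ := fun b g hg hg0 =>
    integrable_mul_supported μ hK ((ContinuousLinearMap.apply ℝ ℝ b).integrable_comp hGK) hg
      fun y hy => hcs g hg0 y fun h => hy (closedBall_subset_closedBall (by linarith) h)
  have e1 : ∫ y, uK y * k' 0 y ∂μ =
      -∫ y, uK y * fderiv ℝ Φ y a ∂μ + q * ∑ j, ∫ y, uK y * fderiv ℝ (ψ j) y (B j) ∂μ := by
    rw [← integral_finsetSum _ fun j _ => (hj j).1, ← integral_const_mul, ← integral_neg,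
      ← integral_add (by simpa using hia.neg)
        ((integrable_finsetSum _ fun j _ => (hj j).1).const_mul q)]
    refine integral_congr_ae (Eventually.of_forall fun y => ?_)
    simp only [hk'0, Finset.mul_sum, mul_add, mul_neg]
    congr 1
    exact Finset.sum_congr rfl fun j _ => by ring
  have e2 : ∀ y, G y (a + d • (t⁻¹ • (y - x))) * Φ y =
      G y a * Φ y + -q * ∑ j, G y (B j) * ψ j y := by
    intro y
    conv_lhs => rw [← hπ (y - x)]
    simp only [map_add, map_smul, map_sum, smul_eq_mul, ψ, q, neg_neg, add_mul, Finset.mul_sum,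
      Finset.sum_mul]
    congr 1
    exact Finset.sum_congr rfl fun j _ => by ring
  have e3 : ∫ z, G (x + t • z) (a + d • z) ∂mollMeasure μ =
      ∫ y, G y (a + d • (t⁻¹ • (y - x))) * Φ y ∂μ := by
    have h := integral_mollMeasure μ (fun y => G y (a + d • (t⁻¹ • (y - x)))) hr0 x
    simp only [add_sub_cancel_left, smul_smul, smul_eq_mul] at h ⊢
    simpa [t, Φ, mul_assoc, inv_mul_cancel₀ hr0.ne', mul_comm] using h
  rw [e1, hea, e3, Finset.sum_congr rfl fun j _ => (hj j).2]
  simp only [e2]
  rw [integral_add (hGb a Φ hΦ.continuous fun _ h => h)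
    ((integrable_finsetSum _ fun j _ =>
      hGb _ _ (hψ j).continuous fun y h => by simp [ψ, h]).const_mul _),
    integral_const_mul, integral_finsetSum _ fun j _ =>
      hGb _ _ (hψ j).continuous fun y h => by simp [ψ, h], Finset.sum_neg_distrib]
  ring

end

end Vale.Agent.P073
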