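import Mathlib
import Vale.Agent.P073.Spec

/-!
# P073: from the scalar approximation to maps that move points along parallel lines

A map `x ↦ x + t x • e` is written as `x + u x • e` with `e` normalised; weak gradients are unique
on open sets, so the gradient of `f` is determined by that of `u`.
-/

open Set MeasureTheory Metric Filter
open scoped ContDiff ENNReal RealInnerProductSpace

noncomputable section

namespace Vale.Agent.P073

/-- `f` is in `W^{1,p}` on `Ω` with weak gradient `G`, componentwise. -/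
def IsW1p (p : ℝ) (Ω : Set E3) (f : E3 → E3) (G : Fin 3 → E3 → E3 →L[ℝ] ℝ) : Prop :=
  ∀ i, MemLp (fun x => f x i) (ENNReal.ofReal p) (volume.restrict Ω) ∧
    MemLp (G i) (ENNReal.ofReal p) (volume.restrict Ω) ∧ WeakGrad volume Ω (fun x => f x i) (G i)

section

variable {E : Type*} [NormedAddCommGroup E] [NormedSpace ℝ E] [MeasurableSpace E]
  [FiniteDimensional ℝ E] [BorelSpace E] {μ : Measure E} [μ.IsAddHaarMeasure] {Ω : Set E}

omit [FiniteDimensional ℝ E] [BorelSpace E] [μ.IsAddHaarMeasure] in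
theorem integrableOn_apply {G : E → E →L[ℝ] ℝ} (hG : IntegrableOn G Ω μ) (a : E) :
    IntegrableOn (fun x => G x a) Ω μ :=
  (ContinuousLinearMap.apply ℝ ℝ a).integrable_comp hG

theorem integrable_mul_test {u φ : E → ℝ} (hu : IntegrableOn u Ω μ) (hφ : Continuous φ)
    (hφs : HasCompactSupport φ) (hφΩ : tsupport φ ⊆ Ω) : Integrable (fun x => u x * φ x) μ :=
  integrable_mul_supported μ hφs.isCompact (hu.mono_set hφΩ) hφ
    fun _ hy => image_eq_zero_of_notMem_tsupport hy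

theorem integrable_mul_fderiv_test {u φ : E → ℝ} (hu : IntegrableOn u Ω μ) (hφ : ContDiff ℝ ∞ φ)
    (hφs : HasCompactSupport φ) (hφΩ : tsupport φ ⊆ Ω) (a : E) :
    Integrable (fun x => u x * fderiv ℝ φ x a) μ :=
  integrable_mul_supported μ hφs.isCompact (hu.mono_set hφΩ)
    ((hφ.continuous_fderiv (by simp)).clm_apply continuous_const)
    fun y hy => by rw [fderiv_of_notMem_tsupport ℝ hy]; rfl

omit [FiniteDimensional ℝ E] [BorelSpace E] [μ.IsAddHaarMeasure] in
theorem WeakGrad.congr {u u' : E → ℝ} {G : E → E →L[ℝ] ℝ} (h : WeakGrad μ Ω u G)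
    (he : EqOn u u' Ω) : WeakGrad μ Ω u' G := fun φ hφ hs hsub a => by
  rw [← h φ hφ hs hsub a]
  refine integral_congr_ae (Eventually.of_forall fun x => ?_)
  by_cases hx : x ∈ tsupport φ
  · simp [he (hsub hx)]
  · simp [fderiv_of_notMem_tsupport ℝ hx]

theorem WeakGrad.add {u u' : E → ℝ} {G G' : E → E →L[ℝ] ℝ} (h : WeakGrad μ Ω u G)
    (h' : WeakGrad μ Ω u' G') (hu : IntegrableOn u Ω μ) (hu' : IntegrableOn u' Ω μ)
    (hG : IntegrableOn G Ω μ) (hG' : IntegrableOn G' Ω μ) :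
    WeakGrad μ Ω (fun x => u x + u' x) (fun x => G x + G' x) := fun φ hφ hs hsub a => by
  simp only [_root_.add_apply, add_mul]
  rw [integral_add (integrable_mul_fderiv_test hu hφ hs hsub a)
      (integrable_mul_fderiv_test hu' hφ hs hsub a),
    integral_add (integrable_mul_test (integrableOn_apply hG a)
        hφ.continuous hs hsub)
      (integrable_mul_test (integrableOn_apply hG' a)
        hφ.continuous hs hsub),
    h φ hφ hs hsub a, h' φ hφ hs hsub a, neg_add]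

omit [FiniteDimensional ℝ E] [BorelSpace E] [μ.IsAddHaarMeasure] in
theorem WeakGrad.const_mul {u : E → ℝ} {G : E → E →L[ℝ] ℝ} (h : WeakGrad μ Ω u G) (c : ℝ) :
    WeakGrad μ Ω (fun x => c * u x) (fun x => c • G x) := fun φ hφ hs hsub a => by
  simp only [_root_.smul_apply, smul_eq_mul, mul_assoc, integral_const_mul,
    h φ hφ hs hsub a, mul_neg]

/-- The classical derivative is a weak gradient. -/
theorem weakGrad_fderiv (hΩ : IsOpen Ω) {u : E → ℝ} (hu : ContDiffOn ℝ ∞ u Ω)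
    (huI : IntegrableOn u Ω μ) (hduI : IntegrableOn (fderiv ℝ u) Ω μ) :
    WeakGrad μ Ω u (fderiv ℝ u) := fun φ hφ hs hsub a => by
  have h := integral_mul_fderiv_eq_neg_fderiv_mul_of_integrable (μ := μ) (f := φ) (g := u) (v := a)
    (((integrable_mul_fderiv_test huI hφ hs hsub a)).congr
      (Eventually.of_forall fun x => mul_comm _ _))
    ((integrable_mul_test (integrableOn_apply hduI a) hφ.continuous
      hs hsub).congr (Eventually.of_forall fun x => mul_comm _ _))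
    ((integrable_mul_test huI hφ.continuous hs hsub).congr
      (Eventually.of_forall fun x => mul_comm _ _))
    (fun x _ => (hφ.differentiable (by simp)) x)
    (fun x hx => (hu.contDiffAt (hΩ.mem_nhds (hsub hx))).differentiableAt (by simp))
  simp only [mul_comm (u _), mul_comm _ (φ _)]
  rw [h, neg_neg]

/-- Weak gradients are unique. -/
theorem WeakGrad.ae_eq (hΩ : IsOpen Ω) {u : E → ℝ} {G G' : E → E →L[ℝ] ℝ} (h : WeakGrad μ Ω u G)
    (h' : WeakGrad μ Ω u G') (hG : IntegrableOn G Ω μ) (hG' : IntegrableOn G' Ω μ) :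
    ∀ᵐ x ∂μ.restrict Ω, G x = G' x := by
  have hd : ∀ a : E, ∀ᵐ x ∂μ, x ∈ Ω → G x a - G' x a = 0 := fun a => by
    refine hΩ.ae_eq_zero_of_integral_contDiff_smul_eq_zero
      ((integrableOn_apply hG a).sub
        (integrableOn_apply hG' a)).locallyIntegrableOn
      fun φ hφ hs hsub => ?_
    simp only [smul_eq_mul, mul_comm (φ _), sub_mul]
    rw [integral_sub (integrable_mul_test (integrableOn_apply hG a)
        hφ.continuous hs hsub)
      (integrable_mul_test (integrableOn_apply hG' a)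
        hφ.continuous hs hsub)]
    linarith [h φ hφ hs hsub a, h' φ hφ hs hsub a]
  set B := Module.finBasis ℝ E
  rw [ae_restrict_iff' hΩ.measurableSet]
  filter_upwards [ae_all_iff.2 fun j => hd (B j)] with x hx hxΩ
  exact ContinuousLinearMap.coe_injective (B.ext fun j => sub_eq_zero.1 (hx j hxΩ))

end

theorem memLp_fun_add {α V : Type*} [MeasurableSpace α] [NormedAddCommGroup V] {ν : Measure α}
    {q : ℝ≥0∞} {g h : α → V} (hg : MemLp g q ν) (hh : MemLp h q ν) :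
    MemLp (fun x => g x + h x) q ν :=
  hg.add hh

theorem memLp_fun_smul {α V : Type*} [MeasurableSpace α] [NormedAddCommGroup V] [NormedSpace ℝ V]
    {ν : Measure α} {q : ℝ≥0∞} {g : α → V} (hg : MemLp g q ν) (c : ℝ) :
    MemLp (fun x => c • g x) q ν :=
  hg.const_smul c

/-- A function with an `L^p` weak gradient, both in `L^p`. -/
def IsScalarW1p (p : ℝ) (Ω : Set E3) (u : E3 → ℝ) (G : E3 → E3 →L[ℝ] ℝ) : Prop :=
  MemLp u (ENNReal.ofReal p) (volume.restrict Ω) ∧
    MemLp G (ENNReal.ofReal p) (volume.restrict Ω) ∧ WeakGrad volume Ω u G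

theorem IsScalarW1p.integrableOn {p : ℝ} (hp : 1 ≤ p) {Ω : Set E3} (hbd : Bornology.IsBounded Ω)
    {u : E3 → ℝ} {G : E3 → E3 →L[ℝ] ℝ} (h : IsScalarW1p p Ω u G) :
    IntegrableOn u Ω ∧ IntegrableOn G Ω := by
  have : IsFiniteMeasure (volume.restrict Ω) :=
    isFiniteMeasure_restrict.2 hbd.measure_lt_top.ne
  have hp1 : (1 : ℝ≥0∞) ≤ ENNReal.ofReal p := by simpa using ENNReal.ofReal_le_ofReal hp
  exact ⟨h.1.integrable hp1, h.2.1.integrable hp1⟩

theorem IsScalarW1p.add {p : ℝ} (hp : 1 ≤ p) {Ω : Set E3} (hbd : Bornology.IsBounded Ω)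
    {u u' : E3 → ℝ} {G G' : E3 → E3 →L[ℝ] ℝ} (h : IsScalarW1p p Ω u G)
    (h' : IsScalarW1p p Ω u' G') :
    IsScalarW1p p Ω (fun x => u x + u' x) (fun x => G x + G' x) :=
  ⟨h.1.add h'.1, memLp_fun_add h.2.1 h'.2.1, h.2.2.add h'.2.2 (h.integrableOn hp hbd).1
    (h'.integrableOn hp hbd).1 (h.integrableOn hp hbd).2 (h'.integrableOn hp hbd).2⟩

theorem IsScalarW1p.const_mul {p : ℝ} {Ω : Set E3} {u : E3 → ℝ} {G : E3 → E3 →L[ℝ] ℝ}
    (h : IsScalarW1p p Ω u G) (c : ℝ) :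
    IsScalarW1p p Ω (fun x => c * u x) (fun x => c • G x) :=
  ⟨h.1.const_mul c, memLp_fun_smul h.2.1 c, h.2.2.const_mul c⟩

/-- A coordinate as a linear form. -/
def coord (i : Fin 3) : E3 →L[ℝ] ℝ := EuclideanSpace.proj i

theorem coord_apply (i : Fin 3) (x : E3) : coord i x = x i := rfl

theorem isScalarW1p_coord {p : ℝ} (hp : 1 ≤ p) {Ω : Set E3} (hΩ : IsOpen Ω)
    (hbd : Bornology.IsBounded Ω) (i : Fin 3) :
    IsScalarW1p p Ω (fun x => coord i x) (fun _ => coord i) := by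
  have : IsFiniteMeasure (volume.restrict Ω) :=
    isFiniteMeasure_restrict.2 hbd.measure_lt_top.ne
  have hp1 : (1 : ℝ≥0∞) ≤ ENNReal.ofReal p := by simpa using ENNReal.ofReal_le_ofReal hp
  obtain ⟨R, hR⟩ := hbd.exists_norm_le
  have hx : MemLp (fun x : E3 => coord i x) (ENNReal.ofReal p) (volume.restrict Ω) := by
    refine MemLp.of_bound (coord i).continuous.aestronglyMeasurable (‖coord i‖ * R) ?_
    filter_upwards [ae_restrict_mem hΩ.measurableSet] with x hx
    exact ((coord i).le_opNorm x).trans (mul_le_mul_of_nonneg_left (hR x hx) (norm_nonneg _))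
  have hd : fderiv ℝ (coord i) = fun _ => coord i := funext fun x => (coord i).fderiv
  refine ⟨hx, memLp_const _, ?_⟩
  have h := weakGrad_fderiv (μ := volume) hΩ (coord i).contDiff.contDiffOn (hx.integrable hp1)
    (by rw [hd]; exact (memLp_const _).integrable le_rfl)
  rwa [hd] at h

/-- The case where `f` is the identity. -/
theorem line_approx_zero (p : ℝ) (hp : 1 ≤ p) (Ω : Set E3) (hΩ : IsOpen Ω)
    (hbd : Bornology.IsBounded Ω) (f : E3 → E3) (G : Fin 3 → E3 → E3 →L[ℝ] ℝ)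
    (hf : IsW1p p Ω f G) (hfid : EqOn f id Ω) :
    ∃ g : E3 → E3, ContDiffOn ℝ ∞ g Ω ∧ BijOn g Ω (f '' Ω) ∧ IsOpen (f '' Ω) ∧
      ContDiffOn ℝ ∞ (Function.invFunOn g Ω) (f '' Ω) ∧
      IsW1p p Ω g (fun i x => fderiv ℝ (fun y => g y i) x) ∧
      (∀ x ∈ Ω, g x = x) ∧
      ∀ i, ∫⁻ x in Ω, (‖g x i - f x i‖ₑ ^ p + ‖fderiv ℝ (fun y => g y i) x - G i x‖ₑ ^ p) = 0 := by
  have hp0 : (0 : ℝ) < p := by linarith
  have him : f '' Ω = Ω := hfid.image_eq.trans (image_id Ω)
  have hx := isScalarW1p_coord hp hΩ hbd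
  have hd : ∀ (i : Fin 3) (x : E3), fderiv ℝ (fun y : E3 => y i) x = coord i :=
    fun i x => (coord i).fderiv
  refine ⟨id, contDiffOn_id, ?_, ?_, ?_, fun i => ⟨(hx i).1, ?_, ?_⟩, fun _ _ => rfl, fun i => ?_⟩
  · rw [him]; exact bijOn_id Ω
  · rw [him]; exact hΩ
  · rw [him]
    exact contDiffOn_id.congr fun y hy => Function.invFunOn_eq (f := id) ⟨y, hy, rfl⟩
  · exact (hx i).2.1.ae_eq (Eventually.of_forall fun x => (hd i x).symm)
  · show WeakGrad volume Ω (fun x => coord i x) fun x => fderiv ℝ (fun y : E3 => y i) x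
    rw [show (fun x : E3 => fderiv ℝ (fun y : E3 => y i) x) = fun _ => coord i from funext (hd i)]
    exact (hx i).2.2
  · have hG : ∀ᵐ x ∂volume.restrict Ω, G i x = coord i :=
      WeakGrad.ae_eq hΩ ((hf i).2.2.congr fun x hx => by simp [hfid hx, coord_apply]) (hx i).2.2
        (IsScalarW1p.integrableOn hp hbd (hf i)).2 ((hx i).integrableOn hp hbd).2
    refine le_antisymm ?_ zero_le
    calc _ ≤ ∫⁻ _ in Ω, (0 : ℝ≥0∞) := lintegral_mono_ae (by
          filter_upwards [hG, ae_restrict_mem hΩ.measurableSet] with x hGx hxΩ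
          simp [hd i x, hGx, hfid hxΩ, ← ofReal_norm, hp0])
      _ ≤ _ := by simp

/-- The displacement of `f` along a unit vector, with its weak gradient. -/
theorem isScalarW1p_disp {p : ℝ} (hp : 1 ≤ p) {Ω : Set E3} (hΩ : IsOpen Ω)
    (hbd : Bornology.IsBounded Ω) {f : E3 → E3} {G : Fin 3 → E3 → E3 →L[ℝ] ℝ}
    (hf : IsW1p p Ω f G) (d : E3) :
    IsScalarW1p p Ω (fun x => ∑ i, d i * (f x i + -1 * coord i x))
      (fun x => ∑ i, d i • (G i x + (-1 : ℝ) • coord i)) := by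
  have hw := fun i => (IsScalarW1p.add hp hbd (hf i)
    ((isScalarW1p_coord hp hΩ hbd i).const_mul (-1))).const_mul (d i)
  simp only [Fin.sum_univ_three]
  exact ((hw 0).add hp hbd (hw 1)).add hp hbd (hw 2)

theorem enorm_coord_le_one {d : E3} (hd : ‖d‖ = 1) (i : Fin 3) : ‖d i‖ₑ ≤ 1 := by
  rw [← ofReal_norm, ← ENNReal.ofReal_one, ← hd]
  exact ENNReal.ofReal_le_ofReal (PiLp.norm_apply_le d i)

/-- The case of a unit direction. -/
theorem line_approx_unit (core : CoreSpec) (p : ℝ) (hp : 1 ≤ p) (Ω : Set E3) (hΩ : IsOpen Ω)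
    (hbd : Bornology.IsBounded Ω) (f : E3 → E3) (G : Fin 3 → E3 → E3 →L[ℝ] ℝ)
    (hinj : InjOn f Ω) (hf : IsW1p p Ω f G) (d : E3) (hd1 : ‖d‖ = 1)
    (u : E3 → ℝ) (Gu : E3 → E3 →L[ℝ] ℝ) (huc : ContinuousOn u Ω) (hu : IsScalarW1p p Ω u Gu)
    (hud : ∀ x ∈ Ω, f x = x + u x • d) (ε : ℝ) (hε : 0 < ε) :
    ∃ g : E3 → E3, ContDiffOn ℝ ∞ g Ω ∧ BijOn g Ω (f '' Ω) ∧ IsOpen (f '' Ω) ∧
      ContDiffOn ℝ ∞ (Function.invFunOn g Ω) (f '' Ω) ∧
      IsW1p p Ω g (fun i x => fderiv ℝ (fun y => g y i) x) ∧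
      (∀ x ∈ Ω, ∃ t : ℝ, g x = x + t • d) ∧
      ∀ i, ∫⁻ x in Ω, (‖g x i - f x i‖ₑ ^ p + ‖fderiv ℝ (fun y => g y i) x - G i x‖ₑ ^ p) ≤
        ENNReal.ofReal ε := by
  have hp0 : (0 : ℝ) < p := by linarith
  have hp1 : (1 : ℝ≥0∞) ≤ ENNReal.ofReal p := by simpa using ENNReal.ofReal_le_ofReal hp
  have hinj' : InjOn (fun x => x + u x • d) Ω := hinj.congr hud
  have hε2 : ENNReal.ofReal (ε / 2) ≠ 0 := (ENNReal.ofReal_pos.2 (half_pos hε)).ne'
  obtain ⟨v, hv, hbij, hopen, hinv, hmv, hmdv, hv1, hv2⟩ :=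
    core p hp Ω hΩ hbd d hd1 u Gu huc hinj' hu.2.2 hu.1 hu.2.1 _ hε2
  have him : (fun x => x + u x • d) '' Ω = f '' Ω := (EqOn.image_eq (fun x hx => hud x hx)).symm
  rw [him] at hbij hopen hinv
  set g : E3 → E3 := fun x => x + v x • d with hg
  have hgi : ∀ i, (fun y => g y i) = fun y => coord i y + d i * v y := fun i => funext fun y => by
    simp [hg, coord_apply, mul_comm]
  have hvd : ∀ x ∈ Ω, DifferentiableAt ℝ v x := fun x hx =>
    (hv.contDiffAt (hΩ.mem_nhds hx)).differentiableAt (by simp)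
  have hgd : ∀ i, ∀ x ∈ Ω, fderiv ℝ (fun y => g y i) x = coord i + d i • fderiv ℝ v x :=
    fun i x hx => by
      rw [hgi i]
      exact ((coord i).hasFDerivAt.add ((hvd x hx).hasFDerivAt.const_mul (d i))).fderiv
  have hgc : ∀ i, ContDiffOn ℝ ∞ (fun y => g y i) Ω := fun i => by
    rw [hgi i]; exact (coord i).contDiff.contDiffOn.add (contDiffOn_const.mul hv)
  have hgW : IsW1p p Ω g (fun i x => fderiv ℝ (fun y => g y i) x) := fun i => by
    have hm : MemLp (fun x => g x i) (ENNReal.ofReal p) (volume.restrict Ω) := by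
      rw [hgi i]; exact (isScalarW1p_coord hp hΩ hbd i).1.add (hmv.const_mul _)
    have hD : MemLp (fun x => fderiv ℝ (fun y => g y i) x) (ENNReal.ofReal p)
        (volume.restrict Ω) := by
      refine (memLp_fun_add (isScalarW1p_coord hp hΩ hbd i).2.1 (memLp_fun_smul hmdv (d i))).ae_eq ?_
      filter_upwards [ae_restrict_mem hΩ.measurableSet] with x hx
      exact (hgd i x hx).symm
    have : IsFiniteMeasure (volume.restrict Ω) :=
      isFiniteMeasure_restrict.2 hbd.measure_lt_top.ne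
    exact ⟨hm, hD, weakGrad_fderiv hΩ (hgc i) (hm.integrable hp1) (hD.integrable hp1)⟩
  refine ⟨g, contDiffOn_id.add (hv.smul contDiffOn_const), hbij, hopen, hinv, hgW,
    fun x _ => ⟨v x, rfl⟩, fun i => ?_⟩
  -- the gradient of a component of `f`
  have hGi : ∀ᵐ x ∂volume.restrict Ω, G i x = coord i + d i • Gu x := by
    have hs := (isScalarW1p_coord hp hΩ hbd i).add hp hbd (hu.const_mul (d i))
    refine WeakGrad.ae_eq hΩ (hf i).2.2 (hs.2.2.congr fun x hx => ?_)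
      (IsScalarW1p.integrableOn hp hbd (hf i)).2 (hs.integrableOn hp hbd).2
    simp [hud x hx, coord_apply, mul_comm]
  have hdi := enorm_coord_le_one hd1 i
  calc _ ≤ ∫⁻ x in Ω, (‖v x - u x‖ₑ ^ p + ‖fderiv ℝ v x - Gu x‖ₑ ^ p) := lintegral_mono_ae (by
        filter_upwards [hGi, ae_restrict_mem hΩ.measurableSet] with x hGx hxΩ
        refine add_le_add (ENNReal.rpow_le_rpow ?_ hp0.le) (ENNReal.rpow_le_rpow ?_ hp0.le)
        · rw [show g x i - f x i = d i * (v x - u x) by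
            rw [hud x hxΩ]; simp [hg, mul_comm]; ring, enorm_mul]
          exact mul_le_of_le_one_left zero_le hdi
        · rw [hgd i x hxΩ, hGx, add_sub_add_left_eq_sub, ← smul_sub, enorm_smul]
          exact mul_le_of_le_one_left zero_le hdi)
    _ = (∫⁻ x in Ω, ‖v x - u x‖ₑ ^ p) + ∫⁻ x in Ω, ‖fderiv ℝ v x - Gu x‖ₑ ^ p :=
        lintegral_add_left' (((hmv.1.sub hu.1.1).enorm).pow_const p) _
    _ ≤ ENNReal.ofReal (ε / 2) + ENNReal.ofReal (ε / 2) := add_le_add hv1 hv2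
    _ = ENNReal.ofReal ε := by rw [← ENNReal.ofReal_add (half_pos hε).le (half_pos hε).le, add_halves]

/-- Maps that move every point along a fixed direction are approximated by diffeomorphisms with
the same image. -/
theorem line_approx (core : CoreSpec) (p : ℝ) (hp : 1 ≤ p) (Ω : Set E3) (hΩ : IsOpen Ω)
    (hbd : Bornology.IsBounded Ω) (f : E3 → E3) (G : Fin 3 → E3 → E3 →L[ℝ] ℝ)
    (hfc : ContinuousOn f Ω) (hinj : InjOn f Ω) (hf : IsW1p p Ω f G) (e : E3)
    (hline : ∀ x ∈ Ω, ∃ t : ℝ, f x = x + t • e) (ε : ℝ) (hε : 0 < ε) :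
    ∃ g : E3 → E3, ContDiffOn ℝ ∞ g Ω ∧ BijOn g Ω (f '' Ω) ∧ IsOpen (f '' Ω) ∧
      ContDiffOn ℝ ∞ (Function.invFunOn g Ω) (f '' Ω) ∧
      IsW1p p Ω g (fun i x => fderiv ℝ (fun y => g y i) x) ∧
      (∀ x ∈ Ω, ∃ t : ℝ, g x = x + t • e) ∧
      ∀ i, ∫⁻ x in Ω, (‖g x i - f x i‖ₑ ^ p + ‖fderiv ℝ (fun y => g y i) x - G i x‖ₑ ^ p) ≤
        ENNReal.ofReal ε := by
  rcases eq_or_ne e 0 with rfl | he
  · have hfid : EqOn f id Ω := fun x hx => by obtain ⟨t, ht⟩ := hline x hx; simpa using ht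
    obtain ⟨g, h1, h2, h3, h4, h5, h6, h7⟩ := line_approx_zero p hp Ω hΩ hbd f G hf hfid
    exact ⟨g, h1, h2, h3, h4, h5, fun x hx => ⟨0, by simp [h6 x hx]⟩,
      fun i => (h7 i).le.trans zero_le⟩
  have he0 : 0 < ‖e‖ := norm_pos_iff.2 he
  set d := ‖e‖⁻¹ • e with hd
  have hd1 : ‖d‖ = 1 := by
    rw [hd, norm_smul, Real.norm_eq_abs, abs_of_pos (inv_pos.2 he0), inv_mul_cancel₀ he0.ne']
  have hsq : ∑ i, d i ^ 2 = 1 := by rw [← EuclideanSpace.real_norm_sq_eq, hd1, one_pow]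
  have hte : ∀ t : ℝ, t • e = (t * ‖e‖) • d := fun t => by
    rw [hd, smul_smul, mul_assoc, mul_inv_cancel₀ he0.ne', mul_one]
  have hud : ∀ x ∈ Ω, f x = x + (∑ i, d i * (f x i + -1 * coord i x)) • d := fun x hx => by
    obtain ⟨t, ht⟩ := hline x hx
    rw [hte] at ht
    have hi : ∀ i, f x i + -1 * coord i x = t * ‖e‖ * d i := fun i => by
      rw [coord_apply, ht]; simp
    have hs : ∑ i, d i * (f x i + -1 * coord i x) = t * ‖e‖ := by
      simp only [hi]
      calc ∑ i, d i * (t * ‖e‖ * d i) = t * ‖e‖ * ∑ i, d i ^ 2 := by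
            rw [Finset.mul_sum]; exact Finset.sum_congr rfl fun i _ => by ring
        _ = t * ‖e‖ := by rw [hsq, mul_one]
    rw [hs]; exact ht
  have huc : ContinuousOn (fun x => ∑ i, d i * (f x i + -1 * coord i x)) Ω :=
    continuousOn_finsetSum _ fun i _ => continuousOn_const.mul
      (((coord i).continuous.comp_continuousOn hfc).add
        (continuousOn_const.mul (coord i).continuous.continuousOn))
  obtain ⟨g, h1, h2, h3, h4, h5, h6, h7⟩ := line_approx_unit core p hp Ω hΩ hbd f G hinj hf d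
    hd1 _ _ huc (isScalarW1p_disp hp hΩ hbd hf d) hud ε hε
  refine ⟨g, h1, h2, h3, h4, h5, fun x hx => ?_, h7⟩
  obtain ⟨t, ht⟩ := h6 x hx
  exact ⟨t * ‖e‖⁻¹, by rw [ht, hd, smul_smul]⟩

end Vale.Agent.P073
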