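import Mathlib

/-!
# P073: averages over shifts of variable length

For a length `r` with small gradient the shift `x ↦ x + r x • z` is injective with Jacobian at
least one half, so averaging over `z` is bounded on `L^p` and tends to the identity with `r`,
uniformly in the averaging measure.
-/

open MeasureTheory Set Filter Metric
open scoped ENNReal NNReal Topology

noncomputable section

namespace Vale.Agent.P073

variable {E : Type*} [NormedAddCommGroup E] [NormedSpace ℝ E] [FiniteDimensional ℝ E]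
  [MeasurableSpace E] [BorelSpace E]

/-- Jensen for a probability measure. -/
theorem lintegral_rpow_le {α : Type*} [MeasurableSpace α] (ν : Measure α) [IsProbabilityMeasure ν]
    {f : α → ℝ≥0∞} (hf : AEMeasurable f ν) {p : ℝ} (hp : 1 ≤ p) :
    (∫⁻ z, f z ∂ν) ^ p ≤ ∫⁻ z, f z ^ p ∂ν := by
  have h := eLpNorm'_le_eLpNorm'_of_exponent_le one_pos hp ν hf.aestronglyMeasurable
  simp only [eLpNorm', enorm_eq_self, ENNReal.rpow_one, div_one] at h
  calc (∫⁻ z, f z ∂ν) ^ p ≤ ((∫⁻ z, f z ^ p ∂ν) ^ (1 / p)) ^ p :=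
        ENNReal.rpow_le_rpow h (by linarith)
    _ = ∫⁻ z, f z ^ p ∂ν := by
        rw [← ENNReal.rpow_mul, one_div_mul_cancel (by linarith : p ≠ 0), ENNReal.rpow_one]

/-- A single shift distorts the integral at most twice. -/
theorem lintegral_comp_shift_le (μ : Measure E) [μ.IsAddHaarMeasure] {r : E → ℝ}
    (hr : Differentiable ℝ r) (hdr : ∀ x, ‖fderiv ℝ r x‖ ≤ 1 / 2) {z : E} (hz : ‖z‖ ≤ 1)
    (G : E → ℝ≥0∞) : ∫⁻ x, G (x + r x • z) ∂μ ≤ 2 * ∫⁻ x, G x ∂μ := by
  set T : E → E := fun x => x + r x • z with hT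
  set L : E → E →L[ℝ] E := fun x => ContinuousLinearMap.id ℝ E + (fderiv ℝ r x).smulRight z with hL
  have hd : ∀ x ∈ (univ : Set E), HasFDerivWithinAt T (L x) univ x := fun x _ =>
    ((hasFDerivAt_id x).add ((hr x).hasFDerivAt.smul_const z)).hasFDerivWithinAt
  have hlip : ∀ x y, |r x - r y| ≤ 1 / 2 * ‖x - y‖ := fun x y =>
    convex_univ.norm_image_sub_le_of_norm_fderiv_le (fun w _ => hr w) (fun w _ => hdr w)
      (mem_univ y) (mem_univ x)
  have hinj : InjOn T univ := fun x _ y _ h => by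
    have e : x - y = (r y - r x) • z := by
      rw [sub_smul, sub_eq_sub_iff_add_eq_add, add_comm (r y • z)]
      exact h
    have h1 : ‖x - y‖ ≤ 1 / 2 * ‖x - y‖ := by
      calc ‖x - y‖ = |r y - r x| * ‖z‖ := by rw [e, norm_smul, Real.norm_eq_abs]
        _ ≤ |r y - r x| * 1 := by gcongr
        _ ≤ 1 / 2 * ‖x - y‖ := by rw [mul_one, abs_sub_comm]; exact hlip x y
    exact sub_eq_zero.1 (norm_le_zero_iff.1 (by linarith [norm_nonneg (x - y)]))
  have hdet : ∀ x, (1 : ℝ≥0∞) ≤ 2 * ENNReal.ofReal |(L x).det| := fun x => by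
    have hd' : (L x).det = 1 + fderiv ℝ r x z := by
      have e : ((L x : E →L[ℝ] E) : E →ₗ[ℝ] E) =
          LinearMap.transvection (fderiv ℝ r x : E →ₗ[ℝ] ℝ) z := by
        ext w; simp [hL, LinearMap.transvection]
      rw [ContinuousLinearMap.det, e, LinearMap.transvection.det]
      rfl
    have hb : |fderiv ℝ r x z| ≤ 1 / 2 := by
      have := ((fderiv ℝ r x).le_opNorm z).trans
        (mul_le_mul (hdr x) hz (norm_nonneg _) (by norm_num))
      rwa [Real.norm_eq_abs, mul_one] at this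
    rw [hd', ← ENNReal.ofReal_ofNat 2, ← ENNReal.ofReal_mul (by norm_num), ← ENNReal.ofReal_one]
    refine ENNReal.ofReal_le_ofReal ?_
    linarith [le_abs_self (1 + fderiv ℝ r x z), neg_abs_le (fderiv ℝ r x z)]
  have h := lintegral_image_eq_lintegral_abs_det_fderiv_mul μ MeasurableSet.univ hd hinj G
  rw [Measure.restrict_univ] at h
  calc ∫⁻ x, G (T x) ∂μ ≤ ∫⁻ x, 2 * (ENNReal.ofReal |(L x).det| * G (T x)) ∂μ :=
        lintegral_mono fun x => by
          rw [← mul_assoc]
          exact le_mul_of_one_le_left zero_le (hdet x)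
    _ = 2 * ∫⁻ x in T '' univ, G x ∂μ := by rw [lintegral_const_mul' _ _ (by simp), h]
    _ ≤ 2 * ∫⁻ x, G x ∂μ := by exact mul_le_mul_right (setLIntegral_le_lintegral _ _) _

/-- Averaging over shifts is bounded on `L^p`. -/
theorem lintegral_shift_rpow_le (μ : Measure E) [μ.IsAddHaarMeasure] (ν : Measure E)
    [IsProbabilityMeasure ν] (hν : ∀ᵐ z ∂ν, ‖z‖ ≤ 1) {p : ℝ} (hp : 1 ≤ p) (r : E → ℝ)
    (hr : Differentiable ℝ r) (hdr : ∀ x, ‖fderiv ℝ r x‖ ≤ 1 / 2) (F : E → ℝ≥0∞)
    (hF : Measurable F) :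
    ∫⁻ x, (∫⁻ z, F (x + r x • z) ∂ν) ^ p ∂μ ≤ 2 * ∫⁻ x, F x ^ p ∂μ := by
  have hc : Continuous fun q : E × E => q.1 + r q.1 • q.2 :=
    continuous_fst.add ((hr.continuous.comp continuous_fst).smul continuous_snd)
  have hm : Measurable fun q : E × E => F (q.1 + r q.1 • q.2) := hF.comp hc.measurable
  calc ∫⁻ x, (∫⁻ z, F (x + r x • z) ∂ν) ^ p ∂μ
      ≤ ∫⁻ x, ∫⁻ z, F (x + r x • z) ^ p ∂ν ∂μ :=
        lintegral_mono fun x => lintegral_rpow_le ν
          (hm.comp measurable_prodMk_left).aemeasurable hp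
    _ = ∫⁻ z, ∫⁻ x, F (x + r x • z) ^ p ∂μ ∂ν :=
        lintegral_lintegral_swap (hm.pow_const p).aemeasurable
    _ ≤ ∫⁻ _, 2 * ∫⁻ x, F x ^ p ∂μ ∂ν := lintegral_mono_ae (by
        filter_upwards [hν] with z hz
        exact lintegral_comp_shift_le μ hr hdr hz fun x => F x ^ p)
    _ = _ := by simp

/-- Averages over short, flat shifts are close to the identity in `L^p` on a set of finite measure,
uniformly in the averaging measure and in the length. -/
theorem exists_shift_sub_small (μ : Measure E) [μ.IsAddHaarMeasure] {p : ℝ} (hp : 1 ≤ p)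
    {W : Type*} [NormedAddCommGroup W] [NormedSpace ℝ W] (u : E → W) (hu : StronglyMeasurable u)
    (hu' : MemLp u (ENNReal.ofReal p) μ) (S : Set E) (hS : μ S ≠ ⊤) (eps : ℝ≥0∞) (he : eps ≠ 0) :
    ∃ g > (0 : ℝ), ∀ (ν : Measure E) [IsProbabilityMeasure ν], (∀ᵐ z ∂ν, ‖z‖ ≤ 1) →
      ∀ r : E → ℝ, Differentiable ℝ r → (∀ x, |r x| ≤ g) → (∀ x, ‖fderiv ℝ r x‖ ≤ g) →
        ∫⁻ x in S, (∫⁻ z, ‖u (x + r x • z) - u x‖ₑ ∂ν) ^ p ∂μ ≤ eps := by
  wlog hfin : eps ≠ ⊤
  · exact ⟨1, one_pos, fun ν _ _ r _ _ _ => le_top.trans_eq (not_not.1 hfin).symm⟩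
  have hp0 : (0 : ℝ) < p := by linarith
  set C : ℝ≥0∞ := 2 ^ (p - 1) with hC
  have hCtop : C ≠ ⊤ := ENNReal.rpow_ne_top_of_nonneg (by linarith) (by simp)
  have hC0 : C ≠ 0 := (ENNReal.rpow_pos (by norm_num) (by simp)).ne'
  -- the constants
  set a : ℝ≥0∞ := eps / (4 * C * C) with ha
  have ha0 : a ≠ 0 :=
    (ENNReal.div_pos he (ENNReal.mul_ne_top (ENNReal.mul_ne_top (by simp) hCtop) hCtop)).ne'
  have hlim : Tendsto (fun η : ℝ => ENNReal.ofReal η ^ p * μ S) (𝓝[>] 0) (𝓝 0) := by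
    have h : Tendsto (fun η : ℝ => ENNReal.ofReal η ^ p) (𝓝[>] 0) (𝓝 0) := by
      have := (ENNReal.continuous_rpow_const (y := p)).comp ENNReal.continuous_ofReal
      simpa [Function.comp_def, hp0] using (this.tendsto 0).mono_left nhdsWithin_le_nhds
    simpa using ENNReal.Tendsto.mul_const h (Or.inr hS)
  obtain ⟨η, hηS, hη⟩ := ((hlim.eventually (eventually_le_nhds (pos_iff_ne_zero.2 ha0))).and
    self_mem_nhdsWithin).exists
  -- approximation
  obtain ⟨v, hv, hD, hvc, -⟩ := hu'.exists_hasCompactSupport_eLpNorm_sub_le ENNReal.ofReal_ne_top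
    (ε := a ^ (1 / p)) (by simp [ENNReal.rpow_eq_zero_iff, ha0, hp0.le])
  set F : E → ℝ≥0∞ := fun x => ‖u x - v x‖ₑ with hF
  have hFm : Measurable F := (hu.sub hvc.stronglyMeasurable).enorm
  have hDa : ∫⁻ x, F x ^ p ∂μ ≤ a := by
    rw [eLpNorm_eq_lintegral_rpow_enorm_toReal (ENNReal.ofReal_pos.2 hp0).ne' ENNReal.ofReal_ne_top,
      ENNReal.toReal_ofReal hp0.le] at hD
    exact (ENNReal.rpow_le_rpow_iff (one_div_pos.2 hp0)).1 hD
  obtain ⟨γ, hγ, hγv⟩ := Metric.uniformContinuous_iff.1 (hv.uniformContinuous_of_continuous hvc) η hη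
  refine ⟨min (γ / 2) (1 / 2), lt_min (half_pos hγ) (by norm_num), fun ν _ hν r hr hrg hdr => ?_⟩
  set B : E → ℝ≥0∞ := fun x => ∫⁻ z, F (x + r x • z) ∂ν with hB
  have hc : Continuous fun q : E × E => q.1 + r q.1 • q.2 :=
    continuous_fst.add ((hr.continuous.comp continuous_fst).smul continuous_snd)
  have hBm : Measurable B := (hFm.comp hc.measurable).lintegral_prod_right'
  -- pointwise
  have hpt : ∀ x, (∫⁻ z, ‖u (x + r x • z) - u x‖ₑ ∂ν) ^ p ≤
      C * B x ^ p + C * C * (ENNReal.ofReal η ^ p + F x ^ p) := fun x => by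
    have h1 : ∫⁻ z, ‖u (x + r x • z) - u x‖ₑ ∂ν ≤ B x + (ENNReal.ofReal η + F x) := by
      have hm : Measurable fun z : E => F (x + r x • z) := hFm.comp (by fun_prop)
      refine (lintegral_mono_ae (g := fun z => F (x + r x • z) + (ENNReal.ofReal η + F x)) ?_).trans_eq
        (by rw [lintegral_add_left hm, lintegral_const, measure_univ, mul_one])
      filter_upwards [hν] with z hz
      have hvv : ‖v (x + r x • z) - v x‖ₑ ≤ ENNReal.ofReal η := by
        rw [← ofReal_norm]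
        refine ENNReal.ofReal_le_ofReal ?_
        rw [← dist_eq_norm]
        refine (hγv ?_).le
        rw [dist_eq_norm, add_sub_cancel_left, norm_smul, Real.norm_eq_abs]
        calc |r x| * ‖z‖ ≤ γ / 2 * 1 :=
              mul_le_mul ((hrg x).trans (min_le_left _ _)) hz (norm_nonneg _) (half_pos hγ).le
          _ < γ := by linarith
      rw [show u (x + r x • z) - u x = (u (x + r x • z) - v (x + r x • z)) +
        ((v (x + r x • z) - v x) - (u x - v x)) by abel]
      exact (enorm_add_le _ _).trans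
        (add_le_add le_rfl (enorm_sub_le.trans (add_le_add hvv le_rfl)))
    calc _ ≤ (B x + (ENNReal.ofReal η + F x)) ^ p := ENNReal.rpow_le_rpow h1 hp0.le
      _ ≤ C * (B x ^ p + (ENNReal.ofReal η + F x) ^ p) :=
          ENNReal.rpow_add_le_mul_rpow_add_rpow _ _ hp
      _ ≤ C * B x ^ p + C * (C * (ENNReal.ofReal η ^ p + F x ^ p)) := by
          rw [mul_add]; gcongr; exact ENNReal.rpow_add_le_mul_rpow_add_rpow _ _ hp
      _ = _ := by rw [mul_assoc]
  -- integrate
  have hC1 : 1 ≤ C := (ENNReal.one_rpow (p - 1)).ge.trans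
    (ENNReal.rpow_le_rpow (by norm_num) (by linarith))
  calc _ ≤ ∫⁻ x in S, (C * B x ^ p + C * C * (ENNReal.ofReal η ^ p + F x ^ p)) ∂μ :=
        lintegral_mono hpt
    _ = C * (∫⁻ x in S, B x ^ p ∂μ) +
          C * C * (ENNReal.ofReal η ^ p * μ S + ∫⁻ x in S, F x ^ p ∂μ) := by
        rw [lintegral_add_left ((hBm.pow_const p).const_mul C), lintegral_const_mul' _ _ hCtop,
          lintegral_const_mul' _ _ (ENNReal.mul_ne_top hCtop hCtop),
          lintegral_add_left measurable_const, setLIntegral_const]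
    _ ≤ C * (2 * a) + C * C * (a + a) := by
        gcongr
        · exact (setLIntegral_le_lintegral _ _).trans ((lintegral_shift_rpow_le μ ν hν hp r hr
            (fun x => (hdr x).trans (min_le_right _ _)) F hFm).trans (by gcongr))
        · exact (setLIntegral_le_lintegral _ _).trans hDa
    _ ≤ 4 * C * C * a := by
        calc C * (2 * a) + C * C * (a + a) ≤ C * C * (2 * a) + C * C * (a + a) := by
              gcongr; exact le_mul_of_one_le_left zero_le hC1
          _ = 4 * C * C * a := by ring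
    _ ≤ eps := ENNReal.mul_div_le

end Vale.Agent.P073
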